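import Vale.Agent.P214.POSG.Wins
import Vale.Agent.P214.POS.Vit
import Vale.Agent.P214.R2.Meas

/-!
# P214, block POS (all m), part 4: positivity of the fluctuation

Unit scale: base ball `ball 0 2`.  `Gd m T ν P 0 2 τ` is the set of base points over which the
excess is at most `τ s ^ m` at all scales `s ≤ 1/8`; `Steep .. τ x s` says that `s` is the last
scale at which the excess at `x` equals `τ s ^ m`; `Stn` is the union of the balls
`closedBall x s` over all steep pairs; `thx` is the maximal function of the excess.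
-/

open Set Filter Topology MeasureTheory Metric
open scoped RealInnerProductSpace ENNReal

set_option linter.all false

namespace Vale.Agent.P214.POSG

open Vale.Agent.P214.FV Vale.Agent.P214.Skel Vale.Agent.P214.R2

variable {E : Type*} [NormedAddCommGroup E] [InnerProductSpace ℝ E] [FiniteDimensional ℝ E]
  [MeasurableSpace E] [BorelSpace E]
variable {m Q : ℕ} {T : Submodule ℝ E} {G : Set E} {h : ℝ} {ν : Measure E} {P : E → E →L[ℝ] E}
  {S : Set E} {θ : E → ℕ} {J : E → ℝ} {x z : E} {R s r r₀ τ δ : ℝ}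

/-- the maximal function of the excess -/
noncomputable def thx (m : ℕ) (T : Submodule ℝ E) (ν : Measure E) (P : E → E →L[ℝ] E) (r₀ : ℝ)
    (x : E) : ℝ≥0∞ :=
  ⨆ s ∈ Ioc (0:ℝ) r₀, ENNReal.ofReal (exc T ν P x s / s ^ m)

lemma le_thx (hs : 0 < s) (hs0 : s ≤ r₀) :
    ENNReal.ofReal (exc T ν P x s / s ^ m) ≤ thx m T ν P r₀ x :=
  le_iSup₂ (f := fun s (_ : s ∈ Ioc (0:ℝ) r₀) => ENNReal.ofReal (exc T ν P x s / s ^ m)) s
    ⟨hs, hs0⟩

lemma lowerSemicontinuous_thx (hC : CylStat m T G h ν P) (r₀ : ℝ) :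
    LowerSemicontinuous (thx m T ν P r₀) := by
  refine lowerSemicontinuous_biSup fun s hs => ?_
  rw [lowerSemicontinuous_iff_isClosed_preimage]
  intro c
  have hsm : (0:ℝ) < s ^ m := pow_pos hs.1 m
  by_cases hc : c = ⊤
  · subst hc
    have : (fun x => ENNReal.ofReal (exc T ν P x s / s ^ m)) ⁻¹' Iic ⊤ = univ := by
      ext x; simp
    rw [this]; exact isClosed_univ
  · have : (fun x => ENNReal.ofReal (exc T ν P x s / s ^ m)) ⁻¹' Iic c =
        {x | exc T ν P x s ≤ c.toReal * s ^ m} := by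
      ext x
      simp only [mem_preimage, mem_Iic, mem_setOf_eq]
      rw [ENNReal.ofReal_le_iff_le_toReal hc, div_le_iff₀ hsm]
    rw [this]
    exact isClosed_exc_le hC s _

lemma measurable_thx (hC : CylStat m T G h ν P) (r₀ : ℝ) : Measurable (thx m T ν P r₀) :=
  (lowerSemicontinuous_thx hC r₀).measurable

/-- `s` is the last scale at which the excess at `x` is `τ s ^ m` -/
structure Steep (m : ℕ) (T : Submodule ℝ E) (ν : Measure E) (P : E → E →L[ℝ] E) (z : E)
    (R τ : ℝ) (x : E) (s : ℝ) : Prop where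
  mem : x ∈ T
  base : ‖x - z‖ ≤ 3 / 4 * R
  pos : 0 < s
  le : s ≤ R / 128
  eq : exc T ν P x s = τ * s ^ m
  lt : ∀ s', s < s' → s' ≤ R / 16 → exc T ν P x s' < τ * s' ^ m

/-- the neighbourhood of the steep points -/
def Stn (m : ℕ) (T : Submodule ℝ E) (ν : Measure E) (P : E → E →L[ℝ] E) (z : E)
    (R τ : ℝ) : Set E := {y | ∃ x s, Steep m T ν P z R τ x s ∧ y ∈ closedBall x s}

lemma exists_steep (hC : CylStat m T G h ν P) (hR : 0 < R) (hτ : 0 < τ)
    (htop : exc T ν P z R < τ * (R / 128) ^ m) (hx : x ∈ T) (hxz : ‖x - z‖ ≤ 3 / 4 * R)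
    (hbad : x ∉ Gd m T ν P z R τ) : ∃ s, Steep m T ν P z R τ x s := by
  have hdist : dist x z ≤ 3 / 4 * R := by rwa [dist_eq_norm]
  have h1 : ∃ s, 0 < s ∧ s ≤ R / 16 ∧ τ * s ^ m < exc T ν P x s := by
    by_contra hcon
    push Not at hcon
    exact hbad ⟨hx, hxz, fun s h1 h2 => hcon s h1 h2⟩
  have h2 : exc T ν P x (R / 16) < τ * (R / 16) ^ m := by
    calc exc T ν P x (R / 16) ≤ exc T ν P z R := exc_mono hC (by linarith)
      _ < τ * (R / 128) ^ m := htop
      _ ≤ τ * (R / 16) ^ m := by gcongr; linarith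
  obtain ⟨s, hs0, hs1, hs2, hs3⟩ := exists_last hC h1 h2
  refine ⟨s, hx, hxz, hs0, ?_, hs2, hs3⟩
  by_contra hcon
  push Not at hcon
  have h3 : exc T ν P x s ≤ exc T ν P z R := exc_mono hC (by linarith)
  have h4 : τ * (R / 128) ^ m ≤ τ * s ^ m := by gcongr
  linarith

/-- near a steep point the maximal function is bounded below -/
lemma thx_ge_of_steep (hC : CylStat m T G h ν P) (hR : 0 < R) (hst : Steep m T ν P z R τ x s)
    {y : E} (hy : y ∈ closedBall x s) : ENNReal.ofReal (τ / 2 ^ m) ≤ thx m T ν P (R / 16) y := by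
  have hs := hst.pos
  have h1 := le_thx (m := m) (T := T) (ν := ν) (P := P) (x := y) (s := 2 * s) (r₀ := R / 16)
    (by positivity) (by have := hst.le; linarith)
  refine le_trans (ENNReal.ofReal_le_ofReal ?_) h1
  have h2 : exc T ν P x s ≤ exc T ν P y (2 * s) := by
    refine exc_mono hC ?_
    have : dist x y ≤ s := by rw [dist_comm]; exact hy
    linarith
  rw [hst.eq] at h2
  rw [mul_pow, div_le_div_iff₀ (by positivity) (by positivity)]
  nlinarith [h2, pow_pos (show (0:ℝ) < 2 by norm_num) m]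

lemma aemeas_tilt' (hC : CylStat m T G h ν P) :
    AEMeasurable (fun y => ENNReal.ofReal (FV.tilt T (P y))) ν :=
  (R2F.aesm_tilt hC).aemeasurable.ennreal_ofReal

/-- integrals with respect to the projected tilt measure -/
lemma lintegral_nuB (hC : CylStat m T G h ν P) {f : E → ℝ≥0∞} (hf : Measurable f) :
    ∫⁻ x, f x ∂nuB T ν P = ∫⁻ y in cylSet T 0 2, f (T.starProjection y) *
      ENNReal.ofReal (FV.tilt T (P y)) ∂ν := by
  have hTm : Measurable (T.starProjection : E → E) := T.starProjection.continuous.measurable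
  unfold nuB
  rw [lintegral_map hf hTm]
  have h1 := lintegral_withDensity_eq_lintegral_mul₀ ((aemeas_tilt' hC).restrict
    (s := cylSet T 0 2)) (g := fun y => f (T.starProjection y)) (hf.comp hTm).aemeasurable
  rw [h1]
  refine lintegral_congr fun y => ?_
  simp only [Pi.mul_apply]
  exact mul_comm _ _

/-- the tilt cut off below `σ` -/
noncomputable def gcut (σ t : ℝ) : ℝ≥0∞ := if σ ≤ t then ENNReal.ofReal t else 0

lemma measurable_gcut (σ : ℝ) : Measurable (gcut σ) :=
  Measurable.ite measurableSet_Ici ENNReal.measurable_ofReal measurable_const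

/-- push-forward of `tilt ν`, restricted to the points of tilt `≥ σ` -/
noncomputable def nuS (σ : ℝ) (T : Submodule ℝ E) (ν : Measure E) (P : E → E →L[ℝ] E) :
    Measure E :=
  ((ν.restrict (cylSet T 0 2)).withDensity fun y => gcut σ (FV.tilt T (P y))).map
    T.starProjection

/-- integrals with respect to the projected measure, any function -/
lemma lintegral_nuS_le (hC : CylStat m T G h ν P) (σ : ℝ) (f : E → ℝ≥0∞) :
    ∫⁻ x, f x ∂nuS σ T ν P ≤ ∫⁻ y in cylSet T 0 2, gcut σ (FV.tilt T (P y)) *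
      f (T.starProjection y) ∂ν := by
  have hTm : Measurable (T.starProjection : E → E) := T.starProjection.continuous.measurable
  have hae : AEMeasurable (fun y => FV.tilt T (P y)) (ν.restrict (cylSet T 0 2)) :=
    (R2F.aesm_tilt hC).aemeasurable.restrict
  set t' := hae.mk _ with ht'
  have h1 : (fun y => gcut σ (FV.tilt T (P y))) =ᵐ[ν.restrict (cylSet T 0 2)]
      fun y => gcut σ (t' y) := by
    filter_upwards [hae.ae_eq_mk] with y hy
    rw [hy]
  unfold nuS
  rw [withDensity_congr_ae h1]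
  refine (lintegral_map_le _ _).trans ?_
  refine (lintegral_withDensity_le_lintegral_mul _ ((measurable_gcut σ).comp
    hae.measurable_mk) _).trans ?_
  refine le_of_eq (lintegral_congr_ae ?_)
  filter_upwards [h1] with y hy
  simp only [Pi.mul_apply, Function.comp_apply]
  rw [hy]

/-- the projected measure of a steep ball: the points of small tilt carry at most half of the
excess -/
lemma ofReal_exc_le (hC : CylStat m T G h ν P) {x : E} {s σ C τ : ℝ} (hx : ‖x‖ + s ≤ 2)
    (hs : 0 < s) (hmass : ν.real (cylSet T x s) ≤ C * s ^ m) (hσ0 : 0 ≤ σ) (hσ : σ * C ≤ τ / 2)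
    (hexc : exc T ν P x s = τ * s ^ m) :
    ENNReal.ofReal (τ / 2 * s ^ m) ≤ nuS σ T ν P (closedBall x s) := by
  haveI := hC.fin
  have hTm : Measurable (T.starProjection : E → E) := T.starProjection.continuous.measurable
  have hsub : cylSet T x s ⊆ cylSet T 0 2 := cylSet_mono (by rw [dist_zero_right]; linarith)
  have h1 : ENNReal.ofReal (exc T ν P x s) = ∫⁻ y in cylSet T x s,
      ENNReal.ofReal (FV.tilt T (P y)) ∂ν := by
    unfold exc
    rw [ofReal_integral_eq_lintegral_ofReal (integrable_tilt' hC).integrableOn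
      (ae_restrict_of_ae (tilt_nonneg_ae hC))]
  have h2 : ∫⁻ y in cylSet T x s, ENNReal.ofReal (FV.tilt T (P y)) ∂ν ≤
      ∫⁻ y in cylSet T x s, gcut σ (FV.tilt T (P y)) ∂ν +
        ENNReal.ofReal (τ / 2 * s ^ m) := by
    calc ∫⁻ y in cylSet T x s, ENNReal.ofReal (FV.tilt T (P y)) ∂ν
        ≤ ∫⁻ y in cylSet T x s, (gcut σ (FV.tilt T (P y)) + ENNReal.ofReal σ) ∂ν := by
          refine lintegral_mono fun y => ?_
          unfold gcut
          split_ifs with h
          · exact le_self_add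
          · rw [zero_add]
            exact ENNReal.ofReal_le_ofReal (not_le.1 h).le
      _ = ∫⁻ y in cylSet T x s, gcut σ (FV.tilt T (P y)) ∂ν +
          ENNReal.ofReal σ * ν (cylSet T x s) := by
          rw [lintegral_add_right _ measurable_const, setLIntegral_const]
      _ ≤ _ := by
          gcongr
          rw [← ofReal_measureReal (measure_ne_top _ _), ← ENNReal.ofReal_mul hσ0]
          refine ENNReal.ofReal_le_ofReal ?_
          calc σ * ν.real (cylSet T x s) ≤ σ * (C * s ^ m) := by gcongr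
            _ = (σ * C) * s ^ m := by ring
            _ ≤ τ / 2 * s ^ m := by gcongr
  have h3 : ENNReal.ofReal (τ / 2 * s ^ m) ≤ ∫⁻ y in cylSet T x s,
      gcut σ (FV.tilt T (P y)) ∂ν := by
    rw [← h1, hexc] at h2
    have h4 : ENNReal.ofReal (τ * s ^ m) =
        ENNReal.ofReal (τ / 2 * s ^ m) + ENNReal.ofReal (τ / 2 * s ^ m) := by
      have h5 : 0 ≤ τ / 2 * s ^ m := by
        have h6 := exc_nonneg hC x s
        rw [hexc] at h6
        linarith
      rw [← ENNReal.ofReal_add h5 h5]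
      congr 1
      ring
    rw [h4] at h2
    exact (ENNReal.add_le_add_iff_right ENNReal.ofReal_ne_top).1 h2
  refine h3.trans ?_
  unfold nuS
  rw [Measure.map_apply hTm isClosed_closedBall.measurableSet,
    withDensity_apply _ (hTm isClosed_closedBall.measurableSet),
    Measure.restrict_restrict (hTm isClosed_closedBall.measurableSet)]
  refine lintegral_mono_set fun y hy => ⟨?_, hsub hy⟩
  exact ball_subset_closedBall hy

/-- **the bad part** -/
theorem bad_part (E : Type*) [NormedAddCommGroup E] [InnerProductSpace ℝ E]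
    [FiniteDimensional ℝ E] [MeasurableSpace E] [BorelSpace E] (m Q : ℕ) (hm : 1 ≤ m) :
    ∃ τ₀ c C : ℝ, 0 < τ₀ ∧ 0 < c ∧ 0 < C ∧ ∀ τ : ℝ, 0 < τ → τ ≤ τ₀ → ∃ ε : ℝ, 0 < ε ∧
    ∀ (T : Submodule ℝ E) (h : ℝ) (ν : Measure E) (P : E → E →L[ℝ] E),
      IntCyl m Q T 0 2 h ε ν P → exc T ν P 0 2 ≤ ε →
      ∀ (f ρ : E → ℝ) (r₁ A : ℝ), Measurable f → (∀ x, f x ≤ ρ x) → r₁ ≤ 3 / 2 →
      (∀ x, r₁ ≤ ‖x‖ → f x = 0) →
      (∀ x s, Steep m T ν P 0 2 τ x s → ‖x‖ ≤ r₁ → ∀ y y', ‖y - x‖ ≤ 5 * s → ‖y' - x‖ ≤ s →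
        ρ y ≤ A * ρ y') → 0 ≤ A →
      ∫⁻ y in T.starProjection ⁻¹' (Gd m T ν P 0 2 τ)ᶜ, ENNReal.ofReal (f (T.starProjection y)) ∂ν
        ≤ ENNReal.ofReal (C * A / τ) * ∫⁻ y in cylSet T 0 2, gcut (c * τ) (FV.tilt T (P y)) *
          (Stn m T ν P 0 2 τ).indicator (fun x => ENNReal.ofReal (ρ x)) (T.starProjection y) ∂ν := by
  obtain ⟨δ, C, hδ, hC0, H⟩ := mass_steep E m Q hm
  refine ⟨δ, 1 / (2 * C), 2 * C, hδ, by positivity, by positivity, fun τ hτ hτδ => ?_⟩
  refine ⟨min δ (τ * (2 / 128) ^ m / 2), by positivity, ?_⟩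
  intro T h ν P hI hexc f ρ r₁ A hf hfρ hr₁ hsupp hquasi hA
  have hC := hI.cyl
  haveI := hC.fin
  have hTm : Measurable (T.starProjection : E → E) := T.starProjection.continuous.measurable
  have hεδ : min δ (τ * (2 / 128) ^ m / 2) ≤ δ := min_le_left _ _
  have hI' : IntCyl m Q T 0 2 h δ ν P :=
    { hI with mass := hI.mass.trans (by gcongr) }
  have hexcδ : exc T ν P 0 2 ≤ δ * 2 ^ m := by
    have h1 : (1:ℝ) ≤ 2 ^ m := one_le_pow₀ (by norm_num)
    nlinarith [hexc.trans hεδ]
  have htop : exc T ν P 0 2 < τ * (2 / 128) ^ m := by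
    have h1 : exc T ν P 0 2 ≤ τ * (2 / 128) ^ m / 2 := hexc.trans (min_le_right _ _)
    have h2 : 0 < τ * (2 / 128) ^ m := by positivity
    linarith
  set S : Set E := {x | x ∈ T ∧ ‖x‖ ≤ r₁ ∧ x ∉ Gd m T ν P 0 2 τ} with hS
  have hex : ∀ x ∈ S, ∃ s, Steep m T ν P 0 2 τ x s := fun x hx =>
    exists_steep hC (by norm_num) hτ htop hx.1 (by rw [sub_zero]; linarith [hx.2.1]) hx.2.2
  choose! t ht using hex
  have hcov := POS.cover_step (μ := ν.map T.starProjection) (e := nuS (1 / (2 * C) * τ) T ν P)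
    (S := S) (t := t)
    (ρ := fun x => ENNReal.ofReal (ρ x)) (th := (Stn m T ν P 0 2 τ).indicator 1) (R := 1)
    (A := ENNReal.ofReal A) (K := ENNReal.ofReal (2 * C / τ)) (κ := 1) ENNReal.ofReal_ne_top
    (fun x hx => (ht x hx).pos) (fun x hx => (ht x hx).le.trans (by norm_num)) ?_ ?_ ?_
  · obtain ⟨B, hBm, hSB, hB⟩ := hcov
    rw [one_mul] at hB
    have h1 : ∫⁻ y in T.starProjection ⁻¹' (Gd m T ν P 0 2 τ)ᶜ,
        ENNReal.ofReal (f (T.starProjection y)) ∂ν ≤
        ∫⁻ y in T.starProjection ⁻¹' B, ENNReal.ofReal (f (T.starProjection y)) ∂ν := by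
      rw [← lintegral_indicator (hTm (isClosed_Gd hC).measurableSet.compl),
        ← lintegral_indicator (hTm hBm)]
      refine lintegral_mono fun y => ?_
      by_cases h2 : y ∈ T.starProjection ⁻¹' (Gd m T ν P 0 2 τ)ᶜ
      · rw [indicator_of_mem h2]
        by_cases h3 : r₁ ≤ ‖T.starProjection y‖
        · rw [hsupp _ h3, ENNReal.ofReal_zero]; exact bot_le
        · have h4 : T.starProjection y ∈ S :=
            ⟨Submodule.starProjection_apply_mem _ _, (not_le.1 h3).le, h2⟩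
          rw [indicator_of_mem (show y ∈ T.starProjection ⁻¹' B from hSB h4)]
      · rw [indicator_of_notMem h2]; exact bot_le
    have h2 : ∫⁻ y in T.starProjection ⁻¹' B, ENNReal.ofReal (f (T.starProjection y)) ∂ν =
        ∫⁻ x in B, ENNReal.ofReal (f x) ∂(ν.map T.starProjection) := by
      rw [setLIntegral_map hBm hf.ennreal_ofReal hTm]
    have h3 : ∫⁻ x in B, ENNReal.ofReal (f x) ∂(ν.map T.starProjection) ≤
        ∫⁻ x in B, ENNReal.ofReal (ρ x) ∂(ν.map T.starProjection) :=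
      lintegral_mono fun x => ENNReal.ofReal_le_ofReal (hfρ x)
    have h4 : ENNReal.ofReal A * ENNReal.ofReal (2 * C / τ) = ENNReal.ofReal (2 * C * A / τ) := by
      rw [← ENNReal.ofReal_mul hA]
      congr 1
      ring
    have h5 : ∀ x, ENNReal.ofReal (ρ x) * (Stn m T ν P 0 2 τ).indicator 1 x =
        (Stn m T ν P 0 2 τ).indicator (fun x => ENNReal.ofReal (ρ x)) x := by
      intro x
      by_cases hx : x ∈ Stn m T ν P 0 2 τ
      · rw [indicator_of_mem hx, indicator_of_mem hx, Pi.one_apply, mul_one]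
      · rw [indicator_of_notMem hx, indicator_of_notMem hx, mul_zero]
    rw [h4] at hB
    simp only [h5] at hB
    exact h1.trans (h2.le.trans (h3.trans (hB.trans
      (mul_le_mul_right (lintegral_nuS_le hC _ _) _))))
  · -- mass
    intro x hx
    have hst := ht x hx
    have hbase : ‖x‖ ≤ 3 / 2 := by have := hst.base; rw [sub_zero] at this; linarith
    have hle : t x ≤ 1 / 64 := hst.le.trans (by norm_num)
    have hpos := hst.pos
    have h1 := H T 0 2 h ν P hI' hexcδ x hst.mem hst.base (t x) hst.pos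
      (hst.le.trans (by norm_num)) τ hτδ hst.lt
    have h2 : ν.map T.starProjection (closedBall x (5 * t x)) ≤ ENNReal.ofReal (C * t x ^ m) := by
      rw [Measure.map_apply hTm isClosed_closedBall.measurableSet,
        ← ofReal_measureReal (measure_ne_top _ _)]
      exact ENNReal.ofReal_le_ofReal h1
    have h3 : ENNReal.ofReal (τ / 2 * t x ^ m) ≤
        nuS (1 / (2 * C) * τ) T ν P (closedBall x (t x)) := by
      refine ofReal_exc_le (C := C) hC (by linarith) hst.pos ?_ (by positivity) ?_ hst.eq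
      · refine le_trans (measureReal_mono fun y hy => ?_) h1
        have : dist (T.starProjection y) x < t x := hy
        show dist (T.starProjection y) x ≤ 5 * t x
        linarith
      · apply le_of_eq
        field_simp
    refine h2.trans ?_
    have h4 : ENNReal.ofReal (C * t x ^ m) =
        ENNReal.ofReal (2 * C / τ) * ENNReal.ofReal (τ / 2 * t x ^ m) := by
      rw [← ENNReal.ofReal_mul (by positivity)]
      congr 1
      field_simp
    rw [h4]
    gcongr
  · -- quasi-constancy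
    intro x hx y hy y' hy'
    have h1 := hquasi x (t x) (ht x hx) hx.2.1 y y'
      (by rw [← dist_eq_norm]; exact hy) (by rw [← dist_eq_norm]; exact hy')
    show ENNReal.ofReal (ρ y) ≤ ENNReal.ofReal A * ENNReal.ofReal (ρ y')
    rw [← ENNReal.ofReal_mul hA]
    exact ENNReal.ofReal_le_ofReal h1
  · intro x hx y hy
    rw [indicator_of_mem (show y ∈ Stn m T ν P 0 2 τ from ⟨x, t x, ht x hx, hy⟩), Pi.one_apply]

/-- **Positivity, pointwise form.** The positive part of the fluctuation is at most half the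
integral of the squared tilt over the good set plus the tilt over the neighbourhood of the steep
points, restricted to the points of tilt `≥ c τ`. -/
theorem pos_pt (E : Type*) [NormedAddCommGroup E] [InnerProductSpace ℝ E]
    [FiniteDimensional ℝ E] [MeasurableSpace E] [BorelSpace E] (m Q : ℕ) (hm : 1 ≤ m) :
    ∃ τ₀ c C : ℝ, 0 < τ₀ ∧ 0 < c ∧ 0 < C ∧ ∀ τ : ℝ, 0 < τ → τ ≤ τ₀ → ∃ ε : ℝ, 0 < ε ∧
    ∀ (T : Submodule ℝ E) (h : ℝ) (ν : Measure E) (P : E → E →L[ℝ] E),
      IntCyl m Q T 0 2 h ε ν P → exc T ν P 0 2 ≤ ε →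
      (∀ᵐ y ∂ν, T.starProjection y ∈ Gd m T ν P 0 2 τ → FV.tilt T (P y) ≤ C * τ) ∧
      ∀ (f ρ : E → ℝ) (r₁ A M : ℝ), Measurable f → (∀ x, 0 ≤ f x) → (∀ x, f x ≤ M) →
      (∀ x, f x ≤ ρ x) → r₁ ≤ 3 / 2 → (∀ x, r₁ ≤ ‖x‖ → f x = 0) →
      (∀ x s, Steep m T ν P 0 2 τ x s → ‖x‖ ≤ r₁ → ∀ y y', ‖y - x‖ ≤ 5 * s → ‖y' - x‖ ≤ s →
        ρ y ≤ A * ρ y') → 0 ≤ A →
      ENNReal.ofReal (Ffl m Q T ν P f) ≤
        ENNReal.ofReal (1 / 2 * ∫ y in T.starProjection ⁻¹' Gd m T ν P 0 2 τ,
          f (T.starProjection y) * FV.tilt T (P y) ^ 2 ∂ν) +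
        ENNReal.ofReal (C * A / τ) * ∫⁻ y in cylSet T 0 2, gcut (c * τ) (FV.tilt T (P y)) *
          (Stn m T ν P 0 2 τ).indicator (fun x => ENNReal.ofReal (ρ x)) (T.starProjection y) ∂ν := by
  obtain ⟨τ₁, c, C, hτ₁, hc0, hC0, H₁⟩ := bad_part E m Q hm
  obtain ⟨δ, hδ, H₂⟩ := sheets_good E m Q hm
  have hcg := cg_pos m
  refine ⟨min τ₁ δ, c, C + m * (2 ^ m / cg m * 2), by positivity, hc0, by positivity,
    fun τ hτ hτ0 => ?_⟩
  obtain ⟨ε, hε, H₃⟩ := H₁ τ hτ (hτ0.trans (min_le_left _ _))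
  refine ⟨min ε δ, by positivity, ?_⟩
  intro T h ν P hI hexc
  obtain ⟨S, θ, -, -, -, hint⟩ := AREA.intCyl_of_skel hI (A := univ)
    (Eventually.of_forall fun _ _ => mem_univ _)
  refine ⟨?_, ?_⟩
  · filter_upwards [tilt_good hI hint τ] with y hy hyg
    refine (hy hyg).trans ?_
    have : 0 ≤ C * τ := by positivity
    nlinarith
  intro f ρ r₁ A M hf h0 hM hfρ hr₁ hsupp hquasi hA
  have hC := hI.cyl
  haveI := hC.fin
  have hTm : Measurable (T.starProjection : E → E) := T.starProjection.continuous.measurable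
  have hIε : IntCyl m Q T 0 2 h ε ν P :=
    { hI with mass := hI.mass.trans (by gcongr; exact min_le_left _ _) }
  have hIδ : IntCyl m Q T 0 2 h δ ν P :=
    { hI with mass := hI.mass.trans (by gcongr; exact min_le_right _ _) }
  have hexcδ : exc T ν P 0 2 ≤ δ * 2 ^ m := by
    have h1 : (1:ℝ) ≤ 2 ^ m := one_le_pow₀ (by norm_num)
    nlinarith [hexc.trans (min_le_right ε δ)]
  have hbad := H₃ T h ν P hIε (hexc.trans (min_le_left _ _)) f ρ r₁ A hf hfρ hr₁ hsupp hquasi hA
  have hN := H₂ T 0 2 h ν P hIδ hexcδ S θ _ hint τ (hτ0.trans (min_le_right _ _))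
  have hJ : ∀ᵐ y ∂(ν.restrict (cylSet T 0 2)),
      1 - FV.tilt T (P y) / 2 - FV.tilt T (P y) ^ 2 / 2 ≤ AREA.jac (proj T) (P y) := by
    refine ae_restrict_of_ae ?_
    filter_upwards [hC.proj] with y hy
    obtain ⟨L, hL, hP⟩ := hy
    rw [hP]
    exact (AREA.jac_bounds hL hC.dimT).2.2.2.1
  have hsplit := ffl_le_split hI hint hJ (isClosed_Gd (τ := τ) hC).measurableSet hN hf h0 hM
    (fun x hx => hsupp x (by rw [sub_zero] at hx; linarith))
  have hfi : IntegrableOn (fun y => f (T.starProjection y))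
      (T.starProjection ⁻¹' (Gd m T ν P 0 2 τ)ᶜ) ν :=
    (Integrable.of_bound (hf.comp hTm).aestronglyMeasurable M (Eventually.of_forall fun y => by
      rw [Real.norm_eq_abs, Function.comp_apply, abs_of_nonneg (h0 _)]; exact hM _)).integrableOn
  have e1 : ENNReal.ofReal (∫ y in T.starProjection ⁻¹' (Gd m T ν P 0 2 τ)ᶜ,
      f (T.starProjection y) ∂ν) = ∫⁻ y in T.starProjection ⁻¹' (Gd m T ν P 0 2 τ)ᶜ,
        ENNReal.ofReal (f (T.starProjection y)) ∂ν :=
    ofReal_integral_eq_lintegral_ofReal hfi (Eventually.of_forall fun y => h0 _)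
  calc ENNReal.ofReal (Ffl m Q T ν P f)
      ≤ ENNReal.ofReal (1 / 2 * ∫ y in T.starProjection ⁻¹' Gd m T ν P 0 2 τ,
          f (T.starProjection y) * FV.tilt T (P y) ^ 2 ∂ν +
        ∫ y in T.starProjection ⁻¹' (Gd m T ν P 0 2 τ)ᶜ, f (T.starProjection y) ∂ν) :=
        ENNReal.ofReal_le_ofReal hsplit
    _ ≤ ENNReal.ofReal (1 / 2 * ∫ y in T.starProjection ⁻¹' Gd m T ν P 0 2 τ,
          f (T.starProjection y) * FV.tilt T (P y) ^ 2 ∂ν) +
        ENNReal.ofReal (∫ y in T.starProjection ⁻¹' (Gd m T ν P 0 2 τ)ᶜ,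
          f (T.starProjection y) ∂ν) := ENNReal.ofReal_add_le
    _ ≤ _ := by
        rw [e1]
        refine add_le_add le_rfl (hbad.trans ?_)
        gcongr
        have : 0 ≤ m * (2 ^ m / cg m * 2) := by positivity
        linarith

end Vale.Agent.P214.POSG
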