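import Vale.Agent.P214.GEN.Props
import Vale.Agent.P214.GEN.PosExh

/-!
# P214, general rate: `BoxPos` (positivity of the final function), all `m`, all `Q`
-/

open Set Filter Topology MeasureTheory Metric
open scoped RealInnerProductSpace ENNReal

set_option linter.all false

namespace Vale.Agent.P214.POSG

open Vale.Agent.P214.Skel Vale.Agent.P214.EX Vale.Agent.P214.R2 Vale.Agent.P214.GEN

variable {E : Type*} [NormedAddCommGroup E] [InnerProductSpace ℝ E] [FiniteDimensional ℝ E]
  [MeasurableSpace E] [BorelSpace E]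
variable {m Q : ℕ} {T : Submodule ℝ E} {G : Set E} {h : ℝ} {ν : Measure E} {P : E → E →L[ℝ] E}

/-- splitting at the boundary of the unit ball -/
lemma split_unit (hC : FV.CylStat m T G h ν P) {ψ : E → ℝ} {δ b : ℝ} (hδ : 0 ≤ δ)
    (hb : 0 ≤ b) (hψδ : ∀ x, 1 ≤ ‖x‖ → ψ x ≤ δ) {A : Set E} (hA : A ⊆ cylSet T 0 2)
    {g g' : ℝ → ℝ≥0∞} (hg' : ∀ t : ℝ, g t ≤ g' t)
    (hgb : ∀ t : ℝ, 0 ≤ t → t ≤ m → g t ≤ ENNReal.ofReal (b * t)) :
    ∫⁻ y in A, g (FV.tilt T (P y)) * ENNReal.ofReal (ψ (T.starProjection y)) ∂ν ≤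
      ∫⁻ y in {y | T.starProjection y ∈ ball (0 : E) 1}, g' (FV.tilt T (P y)) *
        ENNReal.ofReal (ψ (T.starProjection y)) ∂ν +
      ENNReal.ofReal (b * (δ * exc T ν P 0 2)) := by
  have hTm : Measurable (T.starProjection : E → E) := T.starProjection.continuous.measurable
  set B : Set E := {y | T.starProjection y ∈ ball (0 : E) 1} with hB
  have hBm : MeasurableSet B := hTm measurableSet_ball
  rw [← lintegral_inter_add_diff _ A hBm]
  refine add_le_add ?_ ?_
  · refine (lintegral_mono_set inter_subset_right).trans (lintegral_mono fun y => ?_)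
    exact mul_le_mul' (hg' _) le_rfl
  · have h1 : A \ B ⊆ cylSet T 0 2 \ B := diff_subset_diff_left hA
    refine (lintegral_mono_set h1).trans ?_
    have h2 : ∫⁻ y in cylSet T 0 2 \ B, g (FV.tilt T (P y)) *
        ENNReal.ofReal (ψ (T.starProjection y)) ∂ν ≤
        ∫⁻ y in cylSet T 0 2 \ B, ENNReal.ofReal (b * δ) *
          ENNReal.ofReal (FV.tilt T (P y)) ∂ν := by
      refine lintegral_mono_ae ?_
      rw [ae_restrict_iff' ((measurableSet_cylSet T 0 2).diff hBm)]
      filter_upwards [tilt_nonneg_ae hC, tilt_le_ae hC] with y h3 h4 hy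
      have h5 : 1 ≤ ‖T.starProjection y‖ := by
        have : ¬ (T.starProjection y ∈ ball (0 : E) 1) := hy.2
        rwa [mem_ball_zero_iff, not_lt] at this
      calc g (FV.tilt T (P y)) * ENNReal.ofReal (ψ (T.starProjection y))
          ≤ ENNReal.ofReal (b * FV.tilt T (P y)) * ENNReal.ofReal δ :=
            mul_le_mul' (hgb _ h3 h4) (ENNReal.ofReal_le_ofReal (hψδ _ h5))
        _ = ENNReal.ofReal (b * δ) * ENNReal.ofReal (FV.tilt T (P y)) := by
            rw [← ENNReal.ofReal_mul (by positivity), ← ENNReal.ofReal_mul (by positivity)]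
            congr 1; ring
    refine h2.trans ?_
    refine (lintegral_mono_set diff_subset).trans ?_
    rw [lintegral_const_mul'' _ (aemeas_tilt' hC).restrict]
    unfold exc
    rw [← mul_assoc, ENNReal.ofReal_mul (p := b * δ) (by positivity),
      ofReal_integral_eq_lintegral_ofReal
      (integrable_tilt' hC).integrableOn (ae_restrict_of_ae (tilt_nonneg_ae hC))]

/-- **BoxPos.** -/
theorem boxPos (E : Type*) [NormedAddCommGroup E] [InnerProductSpace ℝ E]
    [FiniteDimensional ℝ E] [MeasurableSpace E] [BorelSpace E] (m Q : ℕ) (hm : 1 ≤ m) :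
    BoxPos E m Q := by
  obtain ⟨τ₀, c, C, hτ₀, hc, hC0, H⟩ := pos_exh E m Q hm
  refine ⟨τ₀ / 9 ^ m, by positivity, fun η₁ hη₁ hη₁₀ => ?_⟩
  have hτ : 0 < 9 ^ m * η₁ := by positivity
  have hττ : 9 ^ m * η₁ ≤ τ₀ := by
    rw [le_div_iff₀ (by positivity)] at hη₁₀
    linarith
  set τ : ℝ := 9 ^ m * η₁ with hτdef
  obtain ⟨ε, hε, Hε⟩ := H τ hτ hττ
  refine ⟨(1 / 2 + C / τ * (c * τ)⁻¹) + (m / 2 + C / τ + C / τ), min ε (τ / 2), by positivity,
    by positivity, ?_⟩
  intro c₀ κ M T h ν P φ δ t₀ ρ N hI hφ hδ hδ2 ht0 ht0δ hexc hT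
  have hC := hI.cyl
  haveI := hC.fin
  have ht01 : t₀ ^ m ≤ 1 := pow_le_one₀ ht0.le (by linarith)
  have he1 : exc T ν P 0 2 ≤ ε := by
    refine hexc.trans ((mul_le_mul_of_nonneg_right (min_le_left _ _) (by positivity)).trans ?_)
    nlinarith
  have he2 : exc T ν P 0 2 < τ * t₀ ^ m := by
    refine hexc.trans_lt ?_
    have h1 : 0 < t₀ ^ m := by positivity
    have h2 : min ε (τ / 2) ≤ τ / 2 := min_le_right _ _
    nlinarith
  have hI' : IntCyl m Q T 0 2 h ε ν P :=
    ⟨hI.cyl, hI.mem, hI.pos, hI.int, hI.mass.trans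
      (mul_le_mul_of_nonneg_right (min_le_left _ _) (by positivity))⟩
  have key := (Hε T h ν P hI' he1).2 (etaK TH.win) φ c₀ κ δ t₀ η₁ M (adm m T ν P η₁ t₀) ρ N hφ hδ
    (by linarith) ht0 hT (fun i p hp s h1 h2 => hp s h1 h2) hη₁.le
    (by
      have : (8:ℝ) ^ m < 9 ^ m := pow_lt_pow_left₀ (by norm_num) (by norm_num) (by omega)
      rw [hτdef, mul_comm]
      nlinarith) he2
  have hψm : Measurable (rhoLim ρ) := measurable_rhoLim hT.good hT.step
  have hψ0 : ∀ x, 0 ≤ rhoLim ρ x := fun x => rhoLim_nonneg hT.good x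
  have hψδ : ∀ x : E, 1 ≤ ‖x‖ → rhoLim ρ x ≤ δ := by
    intro x hx
    refine (rhoLim_le_phi hT.good x).trans ?_
    unfold psiStart
    rw [hφ.supp x (by rwa [sub_zero])]
    have := eta1_le_one x
    nlinarith
  set B : Set E := {y | T.starProjection y ∈ ball (0 : E) 1} with hB
  have hTm : Measurable (T.starProjection : E → E) := T.starProjection.continuous.measurable
  have hexc0 : 0 ≤ exc T ν P 0 2 := exc_nonneg hC _ _
  -- first term
  have t1 : ENNReal.ofReal (1 / 2 * ∫ y in T.starProjection ⁻¹' Gd m T ν P 0 2 τ,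
      rhoLim ρ (T.starProjection y) * FV.tilt T (P y) ^ 2 ∂ν) ≤
      ∫⁻ y in B, ENNReal.ofReal (1 / 2 * FV.tilt T (P y) ^ 2) *
        ENNReal.ofReal (rhoLim ρ (T.starProjection y)) ∂ν +
      ENNReal.ofReal (m / 2 * (δ * exc T ν P 0 2)) := by
    refine le_trans ?_ (split_unit (A := T.starProjection ⁻¹' Gd m T ν P 0 2 τ)
      (g := fun t => ENNReal.ofReal (1 / 2 * t ^ 2)) (g' := fun t => ENNReal.ofReal (1 / 2 * t ^ 2))
      hC hδ.le (by positivity) hψδ ?_ (fun t => le_rfl) ?_)
    · rw [← integral_const_mul]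
      by_cases hint : Integrable (fun y => 1 / 2 * (rhoLim ρ (T.starProjection y) *
          FV.tilt T (P y) ^ 2)) (ν.restrict (T.starProjection ⁻¹' Gd m T ν P 0 2 τ))
      · rw [ofReal_integral_eq_lintegral_ofReal hint (Eventually.of_forall fun y =>
          mul_nonneg (by norm_num) (mul_nonneg (hψ0 _) (sq_nonneg _)))]
        refine le_of_eq (lintegral_congr fun y => ?_)
        rw [← ENNReal.ofReal_mul (by positivity)]
        congr 1; ring
      · rw [integral_undef hint, ENNReal.ofReal_zero]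
        exact zero_le
    · intro y hy
      have h1 : ‖T.starProjection y - 0‖ ≤ 3 / 4 * 2 := hy.2.1
      show dist (T.starProjection y) 0 < 2
      rw [dist_eq_norm]; linarith
    · intro t ht htm
      refine ENNReal.ofReal_le_ofReal ?_
      nlinarith
  -- second term
  have t2 : ∫⁻ y in cylSet T 0 2, gcut (c * τ) (FV.tilt T (P y)) *
      (Stn m T ν P 0 2 τ).indicator (fun x => ENNReal.ofReal (rhoLim ρ x))
        (T.starProjection y) ∂ν ≤
      ∫⁻ y in B, ENNReal.ofReal ((c * τ)⁻¹ * FV.tilt T (P y) ^ 2) *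
        ENNReal.ofReal (rhoLim ρ (T.starProjection y)) ∂ν +
      ENNReal.ofReal (1 * (δ * exc T ν P 0 2)) := by
    refine le_trans ?_ (split_unit (A := cylSet T 0 2)
      (g := fun t => gcut (c * τ) t) (g' := fun t => ENNReal.ofReal ((c * τ)⁻¹ * t ^ 2))
      hC hδ.le zero_le_one hψδ subset_rfl ?_ ?_)
    · refine lintegral_mono fun y => mul_le_mul' le_rfl ?_
      exact indicator_le_self _ _ _
    · intro t
      unfold gcut
      split_ifs with hct
      · refine ENNReal.ofReal_le_ofReal ?_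
        rw [inv_mul_eq_div, le_div_iff₀ (by positivity)]
        have : 0 < c * τ := by positivity
        nlinarith
      · exact zero_le
    · intro t ht _
      unfold gcut
      split_ifs
      · rw [one_mul]
      · exact zero_le
  have hI1 : ∀ a : ℝ, 0 ≤ a → ∫⁻ y in B, ENNReal.ofReal (a * FV.tilt T (P y) ^ 2) *
      ENNReal.ofReal (rhoLim ρ (T.starProjection y)) ∂ν = ENNReal.ofReal a *
      ∫⁻ y in B, ENNReal.ofReal (FV.tilt T (P y) ^ 2) *
        ENNReal.ofReal (rhoLim ρ (T.starProjection y)) ∂ν := by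
    intro a ha
    rw [← lintegral_const_mul' _ _ ENNReal.ofReal_ne_top]
    refine lintegral_congr fun y => ?_
    rw [ENNReal.ofReal_mul ha, mul_assoc]
  rw [hI1 _ (by positivity)] at t1 t2
  rw [hI1 _ (by positivity)]
  set I1 : ℝ≥0∞ := ∫⁻ y in B, ENNReal.ofReal (FV.tilt T (P y) ^ 2) *
        ENNReal.ofReal (rhoLim ρ (T.starProjection y)) ∂ν with hI1def
  have hCτ : 0 ≤ C / τ := by positivity
  calc ENNReal.ofReal (Ffl m Q T ν P (rhoLim ρ))
      ≤ _ := key
    _ ≤ (ENNReal.ofReal (1 / 2) * I1 + ENNReal.ofReal (m / 2 * (δ * exc T ν P 0 2))) +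
        ENNReal.ofReal (C / τ) * (ENNReal.ofReal ((c * τ)⁻¹) * I1 +
          ENNReal.ofReal (1 * (δ * exc T ν P 0 2))) +
        ENNReal.ofReal (C / τ * (δ * exc T ν P 0 2)) := by
        gcongr
    _ = ENNReal.ofReal (1 / 2 + C / τ * (c * τ)⁻¹) * I1 +
        ENNReal.ofReal ((m / 2 + C / τ + C / τ) * (δ * exc T ν P 0 2)) := by
        have e1 : ENNReal.ofReal (1 / 2 + C / τ * (c * τ)⁻¹) = ENNReal.ofReal (1 / 2) +
            ENNReal.ofReal (C / τ) * ENNReal.ofReal ((c * τ)⁻¹) := by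
          rw [← ENNReal.ofReal_mul hCτ, ← ENNReal.ofReal_add (by norm_num) (by positivity)]
        have e2 : ENNReal.ofReal ((m / 2 + C / τ + C / τ) * (δ * exc T ν P 0 2)) =
            ENNReal.ofReal (m / 2 * (δ * exc T ν P 0 2)) +
            ENNReal.ofReal (C / τ) * ENNReal.ofReal (1 * (δ * exc T ν P 0 2)) +
            ENNReal.ofReal (C / τ * (δ * exc T ν P 0 2)) := by
          rw [← ENNReal.ofReal_mul hCτ, ← ENNReal.ofReal_add (by positivity) (by positivity),
            ← ENNReal.ofReal_add (by positivity) (by positivity)]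
          congr 1; ring
        rw [e1, e2]
        ring
    _ ≤ ENNReal.ofReal (((1 / 2 + C / τ * (c * τ)⁻¹) + (m / 2 + C / τ + C / τ)) * δ *
          exc T ν P 0 2) +
        ENNReal.ofReal ((1 / 2 + C / τ * (c * τ)⁻¹) + (m / 2 + C / τ + C / τ)) * I1 := by
        rw [add_comm]
        refine add_le_add (ENNReal.ofReal_le_ofReal ?_) (mul_le_mul' (ENNReal.ofReal_le_ofReal ?_)
          le_rfl)
        · rw [mul_assoc]
          refine mul_le_mul_of_nonneg_right ?_ (by positivity)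
          have : 0 ≤ 1 / 2 + C / τ * (c * τ)⁻¹ := by positivity
          linarith
        · have : 0 ≤ (m : ℝ) / 2 + C / τ + C / τ := by positivity
          linarith

end Vale.Agent.P214.POSG
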