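import Vale.Agent.P214.R2.WinSk

/-!
# P214, block POS (all m), part 1: the excess as a function of centre and radius; the good set
-/

open Set Filter Topology MeasureTheory Metric
open scoped RealInnerProductSpace ENNReal

set_option linter.all false

namespace Vale.Agent.P214.POSG

open Vale.Agent.P214.FV Vale.Agent.P214.Skel Vale.Agent.P214.R2

variable {E : Type*} [NormedAddCommGroup E] [InnerProductSpace ℝ E] [FiniteDimensional ℝ E]
  [MeasurableSpace E] [BorelSpace E]
variable {m Q : ℕ} {T : Submodule ℝ E} {G : Set E} {h : ℝ} {ν : Measure E} {P : E → E →L[ℝ] E}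
  {x z : E} {R s r τ δ : ℝ}

omit [MeasurableSpace E] [BorelSpace E] in
lemma cylSet_eq_iUnion (T : Submodule ℝ E) (x : E) (s : ℝ) :
    cylSet T x s = ⋃ n : ℕ, cylSet T x (s - 1 / (n + 1)) := by
  ext y
  simp only [mem_iUnion]
  constructor
  · intro hy
    have h1 : dist (T.starProjection y) x < s := hy
    obtain ⟨n, hn⟩ := exists_nat_one_div_lt (sub_pos.2 h1)
    exact ⟨n, show dist (T.starProjection y) x < s - 1 / (n + 1) by linarith⟩
  · rintro ⟨n, hn⟩
    have h1 : dist (T.starProjection y) x < s - 1 / (n + 1) := hn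
    have h2 : (0:ℝ) < 1 / (n + 1) := by positivity
    exact show dist (T.starProjection y) x < s by linarith

/-- left continuity of the excess in the radius -/
lemma exc_le_of_forall_lt (hC : CylStat m T G h ν P) {C : ℝ}
    (hlt : ∀ s', s' < s → exc T ν P x s' ≤ C) : exc T ν P x s ≤ C := by
  have h1 : Tendsto (fun n : ℕ => ∫ y in cylSet T x (s - 1 / (n + 1)), FV.tilt T (P y) ∂ν) atTop
      (𝓝 (∫ y in ⋃ n : ℕ, cylSet T x (s - 1 / (n + 1)), FV.tilt T (P y) ∂ν)) := by
    refine tendsto_setIntegral_of_monotone (fun n => measurableSet_cylSet T x _) ?_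
      (integrable_tilt' hC).integrableOn
    intro a b hab
    refine cylSet_mono ?_
    rw [dist_self, add_zero]
    have : (1:ℝ) / (b + 1) ≤ 1 / (a + 1) := by
      have : (a:ℝ) ≤ b := by exact_mod_cast hab
      gcongr
    linarith
  rw [← cylSet_eq_iUnion] at h1
  refine le_of_tendsto h1 (Eventually.of_forall fun n => ?_)
  exact hlt _ (by
    have : (0:ℝ) < 1 / (n + 1) := by positivity
    linarith)

/-- the excess is lower semicontinuous in the centre -/
lemma isClosed_exc_le (hC : CylStat m T G h ν P) (s C : ℝ) :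
    IsClosed {x : E | exc T ν P x s ≤ C} := by
  rw [← isSeqClosed_iff_isClosed]
  intro u x hu hux
  refine exc_le_of_forall_lt hC fun s' hs' => ?_
  have h1 : ∀ᶠ n in atTop, dist (u n) x < s - s' :=
    (tendsto_iff_dist_tendsto_zero.1 hux).eventually (gt_mem_nhds (by linarith))
  obtain ⟨n, hn⟩ := h1.exists
  refine (exc_mono hC ?_).trans (hu n)
  rw [dist_comm]
  linarith

/-- the good base points: small excess at all small scales -/
def Gd (m : ℕ) (T : Submodule ℝ E) (ν : Measure E) (P : E → E →L[ℝ] E) (z : E) (R τ : ℝ) : Set E :=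
  {x | x ∈ T ∧ ‖x - z‖ ≤ 3 / 4 * R ∧ ∀ s, 0 < s → s ≤ R / 16 → exc T ν P x s ≤ τ * s ^ m}

lemma isClosed_Gd (hC : CylStat m T G h ν P) : IsClosed (Gd m T ν P z R τ) := by
  have h1 : Gd m T ν P z R τ = (T : Set E) ∩ ({x | ‖x - z‖ ≤ 3 / 4 * R} ∩
      ⋂ (s : ℝ) (_ : 0 < s) (_ : s ≤ R / 16), {x | exc T ν P x s ≤ τ * s ^ m}) := by
    ext x
    simp only [Gd, mem_setOf_eq, mem_inter_iff, SetLike.mem_coe, mem_iInter]
  rw [h1]
  refine (Submodule.closed_of_finiteDimensional T).inter
    ((isClosed_le (by fun_prop) continuous_const).inter ?_)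
  exact isClosed_iInter fun s => isClosed_iInter fun _ => isClosed_iInter fun _ =>
    isClosed_exc_le hC s _

/-- the last scale at which the excess is `≥ τ` -/
lemma exists_last (hC : CylStat m T G h ν P) {r₀ : ℝ}
    (hbig : ∃ s, 0 < s ∧ s ≤ r₀ ∧ τ * s ^ m < exc T ν P x s)
    (htop : exc T ν P x r₀ < τ * r₀ ^ m) :
    ∃ s, 0 < s ∧ s < r₀ ∧ exc T ν P x s = τ * s ^ m ∧
      ∀ s', s < s' → s' ≤ r₀ → exc T ν P x s' < τ * s' ^ m := by
  obtain ⟨s₁, hs₁, hs₁r, hs₁e⟩ := hbig
  set A : Set ℝ := {s | 0 < s ∧ s ≤ r₀ ∧ τ * s ^ m ≤ exc T ν P x s} with hA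
  have hne : A.Nonempty := ⟨s₁, hs₁, hs₁r, hs₁e.le⟩
  have hbd : BddAbove A := ⟨r₀, fun s hs => hs.2.1⟩
  set S := sSup A with hS
  have hS1 : s₁ ≤ S := le_csSup hbd ⟨hs₁, hs₁r, hs₁e.le⟩
  have hS0 : 0 < S := hs₁.trans_le hS1
  have hSr : S ≤ r₀ := csSup_le hne fun s hs => hs.2.1
  have hlow : τ * S ^ m ≤ exc T ν P x S := by
    have hcont : Tendsto (fun s : ℝ => τ * s ^ m) (𝓝[<] S) (𝓝 (τ * S ^ m)) :=
      ((continuous_const.mul (continuous_pow m)).tendsto S).mono_left nhdsWithin_le_nhds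
    by_contra hcon
    push Not at hcon
    -- near `S` from the left the function is above `exc S`
    have h1 : ∀ᶠ s in 𝓝 S, exc T ν P x S < τ * s ^ m :=
      ((continuous_const.mul (continuous_pow m)).tendsto S).eventually (lt_mem_nhds hcon)
    rw [Metric.eventually_nhds_iff] at h1
    obtain ⟨ε, hε, h1⟩ := h1
    obtain ⟨s, hsA, hs⟩ := exists_lt_of_lt_csSup hne (show S - ε < sSup A by rw [← hS]; linarith)
    have hsS : s ≤ S := le_csSup hbd hsA
    have h2 := h1 (show dist s S < ε by rw [Real.dist_eq, abs_lt]; constructor <;> linarith)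
    have h3 := hsA.2.2
    have h4 : exc T ν P x s ≤ exc T ν P x S := exc_mono' hC hsS
    linarith
  have hSlt : S < r₀ := lt_of_le_of_ne hSr fun h => by rw [h] at hlow; linarith
  have habove : ∀ s', S < s' → s' ≤ r₀ → exc T ν P x s' < τ * s' ^ m := by
    intro s' h1 h2
    by_contra hcon
    push Not at hcon
    have : s' ≤ S := le_csSup hbd ⟨hS0.trans h1, h2, hcon⟩
    linarith
  refine ⟨S, hS0, hSlt, le_antisymm ?_ hlow, habove⟩
  by_contra hcon
  push Not at hcon
  have h1 : ∀ᶠ s in 𝓝 S, τ * s ^ m < exc T ν P x S :=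
    ((continuous_const.mul (continuous_pow m)).tendsto S).eventually (gt_mem_nhds hcon)
  rw [Metric.eventually_nhds_iff] at h1
  obtain ⟨ε, hε, h1⟩ := h1
  set s := min (S + ε / 2) r₀ with hs
  have hs1 : S < s := lt_min (by linarith) hSlt
  have hs2 : s ≤ r₀ := min_le_right _ _
  have hs3 : s ≤ S + ε / 2 := min_le_left _ _
  have h2 := h1 (show dist s S < ε by rw [Real.dist_eq, abs_lt]; constructor <;> linarith)
  have h3 := habove s hs1 hs2
  have h4 : exc T ν P x S ≤ exc T ν P x s := exc_mono' hC hs1.le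
  linarith

end Vale.Agent.P214.POSG
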