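import Vale.Agent.P214.POSG.Main
import Vale.Agent.P214.GEN.Props

/-!
# P214, general rate: `BoxDen`: the tilt is bounded by the lower density of the projected energy
-/

open Set Filter Topology MeasureTheory Metric
open scoped RealInnerProductSpace ENNReal

set_option linter.all false

namespace Vale.Agent.P214.POSG

open Vale.Agent.P214.FV Vale.Agent.P214.Skel Vale.Agent.P214.R2

variable {E : Type*} [NormedAddCommGroup E] [InnerProductSpace ℝ E] [FiniteDimensional ℝ E]
  [MeasurableSpace E] [BorelSpace E]
variable {m Q : ℕ} {T : Submodule ℝ E} {G : Set E} {h : ℝ} {ν : Measure E} {P : E → E →L[ℝ] E}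
  {S : Set E} {θ : E → ℕ} {J : E → ℝ} {x z : E} {R s r τ δ : ℝ}

/-- **the tilt is bounded by the excess at all small scales** -/
theorem tilt_le_exc (hI : IntCyl m Q T z R h δ ν P)
    (hint : INT.IntCyl m T (ball z R) h (ν.restrict (cylSet T z R)) P S θ J) :
    ∀ᵐ y ∂ν, y ∈ cylSet T z R → ∃ t₁ : ℝ, 0 < t₁ ∧ ∀ t, 0 < t → t ≤ t₁ →
      cg m / 2 ^ (m + 1) * FV.tilt T (P y) * t ^ m ≤ exc T ν P (T.starProjection y) t := by
  have hC := hI.cyl
  haveI := hC.fin
  have hcg := cg_pos m
  set ν' := ν.restrict (cylSet T z R) with hν'
  have hti := integrable_tilt' hC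
  have hti' : Integrable (fun y => FV.tilt T (P y)) ν' := hti.restrict
  have h1 := (Besicovitch.vitaliFamily ν').ae_tendsto_average_norm_sub hti'.locallyIntegrable
  have hS : ∀ᵐ y ∂ν', y ∈ S := by
    rw [ae_iff]; exact hint.nullS
  have hmain : ∀ᵐ y ∂ν', y ∈ cylSet T z R → ∃ t₁ : ℝ, 0 < t₁ ∧ ∀ t, 0 < t → t ≤ t₁ →
      cg m / 2 ^ (m + 1) * FV.tilt T (P y) * t ^ m ≤ exc T ν P (T.starProjection y) t := by
    filter_upwards [h1, hS] with y hy hyS hyc
    have hy' := hy.comp (Besicovitch.tendsto_filterAt ν' y)
    have hθ : (1:ℝ) ≤ θ y := by exact_mod_cast hint.one_le y hyS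
    have hyc' : dist (T.starProjection y) z < R := hyc
    set a := FV.tilt T (P y) with ha
    set d := R - dist (T.starProjection y) z with hd
    have hd0 : 0 < d := by linarith
    have key : ∀ s, 0 < s → s < d → a ≤ 2 ^ m / cg m * (exc T ν P (T.starProjection y) (2 * s)
        / (2 * s) ^ m) + ⨍ w in closedBall y s, ‖FV.tilt T (P w) - a‖ ∂ν' := by
      intro s hs hsd
      have hball : closedBall y s ⊆ T.starProjection ⁻¹' (ball z R) := by
        intro w hw
        rw [mem_closedBall, dist_eq_norm] at hw
        show dist (T.starProjection w) z < R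
        have h2 : dist (T.starProjection w) (T.starProjection y) ≤ s := by
          rw [dist_eq_norm, ← map_sub]; exact (norm_star_le T _).trans hw
        have := dist_triangle (T.starProjection w) (T.starProjection y) z
        linarith
      have h2 := hint.theta_le_ratio hyS hs hball
      have h3 : cg m * s ^ m ≤ ν'.real (closedBall y s) := by
        have h4 : ratio m ν' y s * s ^ m ≤ ν'.real (ball y s) := by
          unfold ratio
          rw [div_mul_cancel₀ _ (by positivity)]
          exact cut_integral_le hs
        have h5 : ν'.real (ball y s) ≤ ν'.real (closedBall y s) :=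
          measureReal_mono ball_subset_closedBall
        have h6 : cg m * s ^ m ≤ θ y * cg m * s ^ m := by
          have : cg m ≤ θ y * cg m := by nlinarith
          gcongr
        have h7 : θ y * cg m * s ^ m ≤ ratio m ν' y s * s ^ m := by gcongr
        linarith
      have hpos : 0 < ν'.real (closedBall y s) := lt_of_lt_of_le (by positivity) h3
      have he0 : 0 ≤ exc T ν P (T.starProjection y) (2 * s) := exc_nonneg hC _ _
      have h4 : ∫ w in closedBall y s, FV.tilt T (P w) ∂ν' ≤
          exc T ν P (T.starProjection y) (2 * s) := by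
        have h5 : closedBall y s ⊆ cylSet T (T.starProjection y) (2 * s) := by
          intro w hw
          rw [mem_closedBall, dist_eq_norm] at hw
          show dist (T.starProjection w) (T.starProjection y) < 2 * s
          rw [dist_eq_norm, ← map_sub]
          exact ((norm_star_le T _).trans hw).trans_lt (by linarith)
        unfold exc
        rw [hν', Measure.restrict_restrict isClosed_closedBall.measurableSet]
        exact setIntegral_mono_set hti.integrableOn (ae_restrict_of_ae (tilt_nonneg_ae hC))
          (inter_subset_left.trans h5).eventuallyLE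
      have h5 : a * ν'.real (closedBall y s) ≤ ∫ w in closedBall y s, FV.tilt T (P w) ∂ν'
          + ∫ w in closedBall y s, ‖FV.tilt T (P w) - a‖ ∂ν' := by
        have hi2 : Integrable (fun w => ‖FV.tilt T (P w) - a‖) ν' :=
          (hti'.sub (integrable_const a)).norm
        rw [← integral_add hti'.integrableOn hi2.integrableOn]
        have : a * ν'.real (closedBall y s) = ∫ w in closedBall y s, a ∂ν' := by
          simp [mul_comm]
        rw [this]
        refine setIntegral_mono (integrable_const a).integrableOn
          (hti'.add hi2).integrableOn fun w => ?_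
        beta_reduce
        have := neg_abs_le (FV.tilt T (P w) - a)
        rw [← Real.norm_eq_abs] at this
        linarith
      have h6 : ∫ w in closedBall y s, ‖FV.tilt T (P w) - a‖ ∂ν' = ν'.real (closedBall y s)
          * ⨍ w in closedBall y s, ‖FV.tilt T (P w) - a‖ ∂ν' := by
        have := measure_smul_setAverage (fun w => ‖FV.tilt T (P w) - a‖)
          (measure_ne_top ν' (closedBall y s))
        rw [smul_eq_mul] at this
        exact this.symm
      rw [h6] at h5
      have h7 : exc T ν P (T.starProjection y) (2 * s) ≤ 2 ^ m / cg m *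
          (exc T ν P (T.starProjection y) (2 * s) / (2 * s) ^ m) * ν'.real (closedBall y s) := by
        calc exc T ν P (T.starProjection y) (2 * s)
            = 2 ^ m / cg m * (exc T ν P (T.starProjection y) (2 * s) / (2 * s) ^ m)
              * (cg m * s ^ m) := by
              rw [mul_pow]; field_simp
          _ ≤ _ := by gcongr
      have h8 : a * ν'.real (closedBall y s) ≤ (2 ^ m / cg m *
          (exc T ν P (T.starProjection y) (2 * s) / (2 * s) ^ m)
          + ⨍ w in closedBall y s, ‖FV.tilt T (P w) - a‖ ∂ν') * ν'.real (closedBall y s) := by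
        rw [add_mul]; linarith
      exact le_of_mul_le_mul_right h8 hpos
    rcases le_or_gt a 0 with ha0 | ha0
    · refine ⟨1, one_pos, fun t ht _ => ?_⟩
      have h1 : cg m / 2 ^ (m + 1) * a * t ^ m ≤ 0 := by
        have h2 : 0 ≤ cg m / 2 ^ (m + 1) := by positivity
        have h3 : 0 ≤ t ^ m := by positivity
        have h4 := mul_nonpos_of_nonneg_of_nonpos h2 ha0
        exact mul_nonpos_of_nonpos_of_nonneg h4 h3
      exact h1.trans (exc_nonneg hC _ _)
    · have hev := hy'.eventually (gt_mem_nhds (show (0:ℝ) < a / 2 by positivity))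
      rw [eventually_nhdsWithin_iff, Metric.eventually_nhds_iff] at hev
      obtain ⟨ε, hε, hev⟩ := hev
      refine ⟨min ε d, by positivity, fun t ht ht1 => ?_⟩
      have htε : t ≤ ε := ht1.trans (min_le_left _ _)
      have htd : t ≤ d := ht1.trans (min_le_right _ _)
      have h1 : ⨍ w in closedBall y (t / 2), ‖FV.tilt T (P w) - a‖ ∂ν' < a / 2 :=
        hev (show dist (t / 2) 0 < ε by
          rw [Real.dist_eq, sub_zero, abs_of_pos (by positivity)]; linarith)
          (show (0:ℝ) < t / 2 by positivity)
      have h2 := key (t / 2) (by positivity) (by linarith)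
      have h3 : 2 * (t / 2) = t := by ring
      rw [h3] at h2
      have h4 : a / 2 ≤ 2 ^ m / cg m * (exc T ν P (T.starProjection y) t / t ^ m) := by linarith
      have h5 : 0 < t ^ m := by positivity
      calc cg m / 2 ^ (m + 1) * a * t ^ m = cg m / 2 ^ m * (a / 2) * t ^ m := by
            rw [pow_succ]; field_simp
        _ ≤ cg m / 2 ^ m * (2 ^ m / cg m * (exc T ν P (T.starProjection y) t / t ^ m)) *
            t ^ m := by gcongr
        _ = exc T ν P (T.starProjection y) t := by field_simp
  rw [ae_restrict_iff' (measurableSet_cylSet T z R)] at hmain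
  filter_upwards [hmain] with y hy hyc
  exact hy hyc hyc

/-- **BoxDen.** -/
theorem boxDen (E : Type*) [NormedAddCommGroup E] [InnerProductSpace ℝ E]
    [FiniteDimensional ℝ E] [MeasurableSpace E] [BorelSpace E] (m Q : ℕ) :
    GEN.BoxDen E m Q := by
  have hcg := cg_pos m
  refine ⟨min 1 (cg m / 2 ^ (m + 1)), 1, by positivity, min_le_left _ _, one_pos, ?_⟩
  intro T h ν P hI hexc
  have hC := hI.cyl
  haveI := hC.fin
  obtain ⟨S, θ, -, -, -, hint⟩ := AREA.intCyl_of_skel hI (A := univ)
    (Eventually.of_forall fun _ _ => mem_univ _)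
  filter_upwards [tilt_le_exc hI hint, tilt_nonneg_ae hC] with y hy ht0 hyb
  have hyc : y ∈ cylSet T 0 2 := by
    have h1 : dist (T.starProjection y) 0 < 1 := hyb
    show dist (T.starProjection y) 0 < 2
    linarith
  obtain ⟨t₁, ht₁, H⟩ := hy hyc
  refine ⟨t₁, ht₁, fun t ht htt => (mul_le_mul_of_nonneg_right ?_ (by positivity)).trans
    (H t ht htt)⟩
  exact mul_le_mul_of_nonneg_right (min_le_right _ _) ht0

end Vale.Agent.P214.POSG
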