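import Vale.Agent.P214.POSG.Main

/-!
# P214, block POS (all m): the lower limit of the excess bounds the tilt almost everywhere
-/

open Set Filter Topology MeasureTheory Metric
open scoped RealInnerProductSpace ENNReal

set_option linter.all false

namespace Vale.Agent.P214.POSG

open Vale.Agent.P214.FV Vale.Agent.P214.Skel Vale.Agent.P214.R2

variable {E : Type*} [NormedAddCommGroup E] [InnerProductSpace ℝ E] [FiniteDimensional ℝ E]
  [MeasurableSpace E] [BorelSpace E]
variable {m Q : ℕ} {T : Submodule ℝ E} {G : Set E} {h : ℝ} {ν : Measure E} {P : E → E →L[ℝ] E}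
  {S : Set E} {θ : E → ℕ} {J : E → ℝ} {x z : E} {R s r τ δ : ℝ}

/-- the normalised excess at the dyadic scales -/
noncomputable def dy (m : ℕ) (T : Submodule ℝ E) (ν : Measure E) (P : E → E →L[ℝ] E) (n : ℕ)
    (x : E) : ℝ := exc T ν P x ((1 / 2) ^ n) / ((1 / 2) ^ n) ^ m

/-- the lower limit of the excess over the dyadic scales -/
noncomputable def ell (m : ℕ) (T : Submodule ℝ E) (ν : Measure E) (P : E → E →L[ℝ] E) (x : E) :
    ℝ≥0∞ := liminf (fun n : ℕ => ENNReal.ofReal (dy m T ν P n x)) atTop

lemma lowerSemicontinuous_exc (hC : CylStat m T G h ν P) (s : ℝ) :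
    LowerSemicontinuous fun x => exc T ν P x s := by
  rw [lowerSemicontinuous_iff_isClosed_preimage]
  exact fun c => isClosed_exc_le hC s c

lemma measurable_dy (hC : CylStat m T G h ν P) (n : ℕ) : Measurable (dy m T ν P n) :=
  (lowerSemicontinuous_exc hC _).measurable.div_const _

lemma measurable_ell (hC : CylStat m T G h ν P) : Measurable (ell m T ν P) :=
  Measurable.liminf fun n => (measurable_dy hC n).ennreal_ofReal

/-- **the tilt is bounded by the lower limit of the excess** -/
theorem tilt_le_ell (hI : IntCyl m Q T z R h δ ν P)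
    (hint : INT.IntCyl m T (ball z R) h (ν.restrict (cylSet T z R)) P S θ J) :
    ∀ᵐ y ∂ν, y ∈ cylSet T z R →
      ENNReal.ofReal (FV.tilt T (P y)) ≤ ENNReal.ofReal (2 ^ m / cg m) *
        ell m T ν P (T.starProjection y) := by
  have hC := hI.cyl
  haveI := hC.fin
  have hcg := cg_pos m
  set ν' := ν.restrict (cylSet T z R) with hν'
  have hti := integrable_tilt' hC
  have hti' : Integrable (fun y => FV.tilt T (P y)) ν' := hti.restrict
  have h1 := (Besicovitch.vitaliFamily ν').ae_tendsto_average_norm_sub hti'.locallyIntegrable
  have hS : ∀ᵐ y ∂ν', y ∈ S := by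
    rw [ae_iff]; exact hint.nullS
  have hmain : ∀ᵐ y ∂ν', y ∈ cylSet T z R →
      ENNReal.ofReal (FV.tilt T (P y)) ≤ ENNReal.ofReal (2 ^ m / cg m) *
        ell m T ν P (T.starProjection y) := by
    filter_upwards [h1, hS] with y hy hyS hyc
    have hy' := hy.comp (Besicovitch.tendsto_filterAt ν' y)
    have hθ : (1:ℝ) ≤ θ y := by exact_mod_cast hint.one_le y hyS
    have hyc' : dist (T.starProjection y) z < R := hyc
    set a := FV.tilt T (P y) with ha
    set d := R - dist (T.starProjection y) z with hd
    have hd0 : 0 < d := by linarith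
    have key : ∀ s, 0 < s → s < d → a ≤ 2 ^ m / cg m * (exc T ν P (T.starProjection y) (2 * s)
        / (2 * s) ^ m) + ⨍ w in closedBall y s, ‖FV.tilt T (P w) - a‖ ∂ν' := by
      intro s hs hsd
      have hball : closedBall y s ⊆ T.starProjection ⁻¹' (ball z R) := by
        intro w hw
        rw [mem_closedBall, dist_eq_norm] at hw
        show dist (T.starProjection w) z < R
        have h2 : dist (T.starProjection w) (T.starProjection y) ≤ s := by
          rw [dist_eq_norm, ← map_sub]; exact (norm_star_le T _).trans hw
        have := dist_triangle (T.starProjection w) (T.starProjection y) z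
        linarith
      have h2 := hint.theta_le_ratio hyS hs hball
      have h3 : cg m * s ^ m ≤ ν'.real (closedBall y s) := by
        have h4 : ratio m ν' y s * s ^ m ≤ ν'.real (ball y s) := by
          unfold ratio
          rw [div_mul_cancel₀ _ (by positivity)]
          exact cut_integral_le hs
        have h5 : ν'.real (ball y s) ≤ ν'.real (closedBall y s) :=
          measureReal_mono ball_subset_closedBall
        have h6 : cg m * s ^ m ≤ θ y * cg m * s ^ m := by
          have : cg m ≤ θ y * cg m := by nlinarith
          gcongr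
        have h7 : θ y * cg m * s ^ m ≤ ratio m ν' y s * s ^ m := by gcongr
        linarith
      have hpos : 0 < ν'.real (closedBall y s) := lt_of_lt_of_le (by positivity) h3
      have he0 : 0 ≤ exc T ν P (T.starProjection y) (2 * s) := exc_nonneg hC _ _
      have h4 : ∫ w in closedBall y s, FV.tilt T (P w) ∂ν' ≤
          exc T ν P (T.starProjection y) (2 * s) := by
        have h5 : closedBall y s ⊆ cylSet T (T.starProjection y) (2 * s) := by
          intro w hw
          rw [mem_closedBall, dist_eq_norm] at hw
          show dist (T.starProjection w) (T.starProjection y) < 2 * s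
          rw [dist_eq_norm, ← map_sub]
          exact ((norm_star_le T _).trans hw).trans_lt (by linarith)
        unfold exc
        rw [hν', Measure.restrict_restrict isClosed_closedBall.measurableSet]
        exact setIntegral_mono_set hti.integrableOn (ae_restrict_of_ae (tilt_nonneg_ae hC))
          (inter_subset_left.trans h5).eventuallyLE
      have h5 : a * ν'.real (closedBall y s) ≤ ∫ w in closedBall y s, FV.tilt T (P w) ∂ν'
          + ∫ w in closedBall y s, ‖FV.tilt T (P w) - a‖ ∂ν' := by
        have hi2 : Integrable (fun w => ‖FV.tilt T (P w) - a‖) ν' :=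
          (hti'.sub (integrable_const a)).norm
        rw [← integral_add hti'.integrableOn hi2.integrableOn]
        have : a * ν'.real (closedBall y s) = ∫ w in closedBall y s, a ∂ν' := by
          simp [mul_comm]
        rw [this]
        refine setIntegral_mono (integrable_const a).integrableOn
          (hti'.add hi2).integrableOn fun w => ?_
        beta_reduce
        have := neg_abs_le (FV.tilt T (P w) - a)
        rw [← Real.norm_eq_abs] at this
        linarith
      have h6 : ∫ w in closedBall y s, ‖FV.tilt T (P w) - a‖ ∂ν' = ν'.real (closedBall y s)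
          * ⨍ w in closedBall y s, ‖FV.tilt T (P w) - a‖ ∂ν' := by
        have := measure_smul_setAverage (fun w => ‖FV.tilt T (P w) - a‖)
          (measure_ne_top ν' (closedBall y s))
        rw [smul_eq_mul] at this
        exact this.symm
      rw [h6] at h5
      have h7 : exc T ν P (T.starProjection y) (2 * s) ≤ 2 ^ m / cg m *
          (exc T ν P (T.starProjection y) (2 * s) / (2 * s) ^ m) * ν'.real (closedBall y s) := by
        calc exc T ν P (T.starProjection y) (2 * s)
            = 2 ^ m / cg m * (exc T ν P (T.starProjection y) (2 * s) / (2 * s) ^ m)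
              * (cg m * s ^ m) := by
              rw [mul_pow]; field_simp
          _ ≤ _ := by gcongr
      have h8 : a * ν'.real (closedBall y s) ≤ (2 ^ m / cg m *
          (exc T ν P (T.starProjection y) (2 * s) / (2 * s) ^ m)
          + ⨍ w in closedBall y s, ‖FV.tilt T (P w) - a‖ ∂ν') * ν'.real (closedBall y s) := by
        rw [add_mul]; linarith
      exact le_of_mul_le_mul_right h8 hpos
    -- the dyadic radii
    have htn : Tendsto (fun n : ℕ => (1 / 2 : ℝ) ^ n) atTop (𝓝 0) :=
      tendsto_pow_atTop_nhds_zero_of_lt_one (by norm_num) (by norm_num)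
    have htn' : Tendsto (fun n : ℕ => (1 / 2 : ℝ) ^ n / 2) atTop (𝓝[>] 0) := by
      refine tendsto_nhdsWithin_iff.2 ⟨?_, Eventually.of_forall fun n => ?_⟩
      · have := htn.div_const 2
        rwa [zero_div] at this
      · show (0:ℝ) < (1 / 2) ^ n / 2
        positivity
    have hav := hy'.comp htn'
    refine ENNReal.le_of_forall_pos_le_add fun ε hε _ => ?_
    have hε' : (0:ℝ) < ε := by exact_mod_cast hε
    have hev : ∀ᶠ n : ℕ in atTop, ENNReal.ofReal ((a - ε) / (2 ^ m / cg m)) ≤
        ENNReal.ofReal (dy m T ν P n (T.starProjection y)) := by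
      filter_upwards [hav.eventually (gt_mem_nhds hε'), (htn'.eventually
        (Ioo_mem_nhdsGT hd0))] with n hn1 hn2
      have h2 := key _ hn2.1 hn2.2
      refine ENNReal.ofReal_le_ofReal ?_
      have h3 : 2 * ((1 / 2 : ℝ) ^ n / 2) = (1 / 2) ^ n := by ring
      rw [h3] at h2
      rw [div_le_iff₀ (by positivity)]
      have h4 : ⨍ w in closedBall y ((1 / 2 : ℝ) ^ n / 2), ‖FV.tilt T (P w) - a‖ ∂ν' < ε := hn1
      have h5 : dy m T ν P n (T.starProjection y) =
        exc T ν P (T.starProjection y) ((1 / 2) ^ n) / ((1 / 2) ^ n) ^ m := rfl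
      rw [h5]
      linarith [mul_comm (2 ^ m / cg m)
        (exc T ν P (T.starProjection y) ((1 / 2) ^ n) / ((1 / 2) ^ n) ^ m)]
    have hlim : ENNReal.ofReal ((a - ε) / (2 ^ m / cg m)) ≤ ell m T ν P (T.starProjection y) :=
      le_liminf_of_le (by isBoundedDefault) hev
    calc ENNReal.ofReal a = ENNReal.ofReal ((a - ε) + ε) := by rw [sub_add_cancel]
      _ ≤ ENNReal.ofReal (a - ε) + ENNReal.ofReal ε := ENNReal.ofReal_add_le
      _ ≤ ENNReal.ofReal (2 ^ m / cg m) * ell m T ν P (T.starProjection y) + ε := by
          rw [ENNReal.ofReal_coe_nnreal]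
          gcongr
          calc ENNReal.ofReal (a - ε) = ENNReal.ofReal (2 ^ m / cg m) *
              ENNReal.ofReal ((a - ε) / (2 ^ m / cg m)) := by
                rw [← ENNReal.ofReal_mul (by positivity)]
                congr 1
                field_simp
            _ ≤ _ := by gcongr
  rw [ae_restrict_iff' (measurableSet_cylSet T z R)] at hmain
  filter_upwards [hmain] with y hy hyc
  exact hy hyc hyc

end Vale.Agent.P214.POSG
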