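import Vale.Agent.P214.POSG.Exc
import Vale.Agent.P214.EX.Total

/-!
# P214, block POS (all m): the functions of the exhaustion are nearly constant near steep points
-/

open Set Filter Topology MeasureTheory Metric
open scoped RealInnerProductSpace ENNReal

set_option linter.all false

namespace Vale.Agent.P214.POSG

open Vale.Agent.P214.EX

section abstract

variable {E : Type*} [NormedAddCommGroup E] [NormedSpace ℝ E] [FiniteDimensional ℝ E]
  [MeasurableSpace E] [BorelSpace E]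
variable {η : E → ℝ} {c₀ κ : ℝ} {M : ℕ} {D Ω : Set E} {adm : ℕ → Set E} {t₀ : ℝ} {φ : E → ℝ}
  {lam₁ lam₂ ν : Measure E} {ρ N : ℕ → E → ℝ}

/-- If no centre of level `T_i < 8 s` touches `closedBall x₀ (5 s)`, then all the functions `ρ_J`
are nearly constant there. -/
theorem quasi (hT : Total η c₀ κ M D Ω adm t₀ φ lam₁ lam₂ ν ρ N) {x₀ : E} {s : ℝ} (hs : 0 < s)
    (hΩ : closedBall x₀ (5 * s) ⊆ Ω) (hst : 8 * s ≤ t₀)
    (hno : ∀ i, t₀ / 2 ^ i < 8 * s → ∀ p ∈ D, p ∈ adm i → 2 * (t₀ / 2 ^ i) + 5 * s ≤ dist p x₀)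
    (J : ℕ) {y y' : E} (hy : y ∈ closedBall x₀ (5 * s)) (hy' : y' ∈ closedBall x₀ (5 * s)) :
    ρ J y ≤ 3 / 2 * ρ J y' := by
  classical
  have ht₀ : 0 < t₀ := by linarith
  have hex : ∃ i : ℕ, t₀ / 2 ^ i < 8 * s := by
    have h1 : Tendsto (fun i : ℕ => t₀ / 2 ^ i) atTop (𝓝 0) := by
      have h2 := (tendsto_pow_atTop_nhds_zero_of_lt_one (r := (1 / 2 : ℝ)) (by norm_num)
        (by norm_num)).const_mul t₀
      rw [mul_zero] at h2
      refine h2.congr fun i => ?_
      rw [div_pow, one_pow, mul_one_div]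
    exact (h1.eventually (gt_mem_nhds (by positivity : (0:ℝ) < 8 * s))).exists
  set i₀ := Nat.find hex with hi₀
  have hi1 : t₀ / 2 ^ i₀ < 8 * s := Nat.find_spec hex
  have hi0 : i₀ ≠ 0 := by
    intro h0
    rw [h0, pow_zero, div_one] at hi1
    linarith
  have hi2 : 4 * s ≤ t₀ / 2 ^ i₀ := by
    obtain ⟨j, hj⟩ := Nat.exists_eq_succ_of_ne_zero hi0
    have h1 : ¬ t₀ / 2 ^ j < 8 * s := Nat.find_min hex (by omega)
    rw [hj, pow_succ]
    push Not at h1
    have h2 : t₀ / (2 ^ j * 2) = t₀ / 2 ^ j / 2 := by rw [div_div]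
    rw [h2]
    linarith
  -- stability after `i₀`
  have hstep : ∀ i, i₀ ≤ i → ∀ x ∈ closedBall x₀ (5 * s), ρ (i + 1) x = ρ i x := by
    intro i hi x hx
    refine ((hT.step i).far x fun q hq p hp => ?_).1
    have hTi : t₀ / 2 ^ i ≤ t₀ / 2 ^ i₀ := by
      have : (2:ℝ) ^ i₀ ≤ 2 ^ i := pow_le_pow_right₀ (by norm_num) hi
      gcongr
    have h1 := hno i (hTi.trans_lt hi1) p hp.1 hp.2.1
    have h2 : dist x x₀ ≤ 5 * s := hx
    have h3 := dist_triangle p x x₀
    linarith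
  have hmin : ∀ J, ∀ x ∈ closedBall x₀ (5 * s), ρ J x = ρ (min J i₀) x := by
    intro J
    induction J with
    | zero => intro x _; simp
    | succ J ih =>
      intro x hx
      rcases le_or_gt i₀ J with h | h
      · rw [hstep J h x hx, ih x hx, min_eq_right h, min_eq_right (by omega)]
      · rw [min_eq_left (by omega)]
  rw [hmin J y hy, hmin J y' hy']
  set j := min J i₀ with hj
  have hTj : 4 * s ≤ t₀ / 2 ^ j := by
    refine hi2.trans ?_
    have : (2:ℝ) ^ j ≤ 2 ^ i₀ := pow_le_pow_right₀ (by norm_num) (min_le_right _ _)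
    gcongr
  have hTj0 : 0 < t₀ / 2 ^ j := by positivity
  have hd : dist y y' ≤ 10 * s := by
    have h1 := dist_triangle_right y y' x₀
    have h2 : dist y x₀ ≤ 5 * s := hy
    have h3 : dist y' x₀ ≤ 5 * s := hy'
    linarith
  have h1 := (hT.good j).loglip y (hΩ hy) y' (hΩ hy') (by linarith)
  have h2 : dist y y' / (t₀ / 2 ^ j) ≤ 4 := by
    rw [div_le_iff₀ hTj0]; linarith
  have h3 := (hT.good j).nonneg y'
  have h4 : (1 / 8) * (dist y y' / (t₀ / 2 ^ j)) * ρ j y' ≤ 1 / 8 * 4 * ρ j y' := by gcongr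
  have h5 := (le_abs_self _).trans (h1.trans h4)
  linarith

end abstract

section cyl

open Vale.Agent.P214.FV Vale.Agent.P214.Skel Vale.Agent.P214.R2

variable {E : Type*} [NormedAddCommGroup E] [InnerProductSpace ℝ E] [FiniteDimensional ℝ E]
  [MeasurableSpace E] [BorelSpace E]
variable {m : ℕ} {T : Submodule ℝ E} {G : Set E} {h : ℝ} {ν : Measure E} {P : E → E →L[ℝ] E}

/-- an admissible centre of level `t < 8 s` cannot be close to a steep point of scale `s` -/
lemma no_adm (hC : CylStat m T G h ν P) {x₀ p : E} {s t t₀ τ τ₁ : ℝ} (hs : 0 < s)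
    (ht : t < 8 * s) (hst : 22 * s ≤ t₀) (hτ : τ₁ * 22 ^ m < τ)
    (hexc : τ * s ^ m ≤ exc T ν P x₀ s)
    (hadm : ∀ r, t ≤ r → r ≤ t₀ → exc T ν P p r ≤ τ₁ * r ^ m) :
    2 * t + 5 * s ≤ dist p x₀ := by
  by_contra hcon
  push Not at hcon
  have h1 := hadm (22 * s) (by linarith) hst
  have h2 : exc T ν P x₀ s ≤ exc T ν P p (22 * s) := by
    refine exc_mono hC ?_
    rw [dist_comm]
    linarith
  rw [mul_pow] at h1
  have h3 : τ₁ * 22 ^ m * s ^ m < τ * s ^ m := by
    have : 0 < s ^ m := by positivity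
    gcongr
  nlinarith

end cyl

end Vale.Agent.P214.POSG
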