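import Vale.Agent.P214.POSG.Exc
import Vale.Agent.P214.R2F.Pos
import Vale.Agent.P214.DEN.C

/-!
# P214, block POS (all m), part 2: positivity over the good set is quadratic in the tilt
-/

open Set Filter Topology MeasureTheory Metric
open scoped RealInnerProductSpace ENNReal

set_option linter.all false

namespace Vale.Agent.P214.POSG

open Vale.Agent.P214.FV Vale.Agent.P214.Skel Vale.Agent.P214.R2

variable {E : Type*} [NormedAddCommGroup E] [InnerProductSpace ℝ E] [FiniteDimensional ℝ E]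
  [MeasurableSpace E] [BorelSpace E]
variable {m Q : ℕ} {T : Submodule ℝ E} {G : Set E} {h : ℝ} {ν : Measure E} {P : E → E →L[ℝ] E}
  {S : Set E} {θ : E → ℕ} {J : E → ℝ} {x z : E} {R s r τ δ : ℝ}

/-- over a set with exactly `Q` sheets the fluctuation is at most half the integral of the
squared tilt -/
theorem pos_sq (hI : INT.IntCyl m T G h ν P S θ J)
    (hJ : ∀ᵐ y ∂ν, 1 - FV.tilt T (P y) / 2 - FV.tilt T (P y) ^ 2 / 2 ≤ J y) {X : Set E}
    (hN : ∀ᵐ x ∂((μH[m] : Measure E).restrict (T : Set E)), x ∈ X →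
      INT.sheets T S θ univ x = Q) {ψ : E → ℝ}
    (hψ : Measurable ψ) (h0 : ∀ x, 0 ≤ ψ x) {M : ℝ} (hM : ∀ x, ψ x ≤ M)
    (hs : ∀ x, x ∉ X → ψ x = 0) :
    ∫ y, ψ (T.starProjection y) * (1 - FV.tilt T (P y) / 2) ∂ν -
        Q * ∫ x in (T : Set E), ψ x ∂μH[m] ≤
      1 / 2 * ∫ y, ψ (T.starProjection y) * FV.tilt T (P y) ^ 2 ∂ν := by
  have hC := hI.stat
  have hfin := hC.fin
  have hM' : ∀ x, |ψ x| ≤ M := fun x => by rw [abs_of_nonneg (h0 x)]; exact hM x
  have hti := R2F.integrable_tilt hC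
  have hti2 : Integrable (fun y => FV.tilt T (P y) ^ 2) ν := by
    refine Integrable.of_bound ((R2F.aesm_tilt hC).pow 2) ((m:ℝ) ^ 2) ?_
    filter_upwards [R2F.tilt_nonneg_ae hC, R2F.tilt_le_ae hC] with y h1 h2
    rw [Real.norm_eq_abs, abs_of_nonneg (sq_nonneg _)]
    exact pow_le_pow_left₀ h1 h2 2
  have hJi : Integrable J ν := Integrable.of_bound hI.measJ.aestronglyMeasurable 1 (by
    filter_upwards [hI.J_nonneg, hI.J_le] with y h1 h2
    rw [Real.norm_of_nonneg h1]; exact h2)
  have i1 := R2F.integrable_base hC hψ hM' hJi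
  have i2 := R2F.integrable_base hC hψ hM' hti2
  have i3 : Integrable (fun y => ψ (T.starProjection y) * (1 - FV.tilt T (P y) / 2)) ν :=
    R2F.integrable_base hC hψ hM' ((integrable_const (1:ℝ)).sub (hti.div_const 2))
  -- the area formula
  have harea := hI.area univ MeasurableSet.univ (fun x => ENNReal.ofReal (ψ x)) hψ.ennreal_ofReal
  rw [Measure.restrict_univ] at harea
  have e1 : ∫⁻ y, ENNReal.ofReal (ψ (T.starProjection y)) * ENNReal.ofReal (J y) ∂ν =
      ENNReal.ofReal (∫ y, ψ (T.starProjection y) * J y ∂ν) := by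
    rw [ofReal_integral_eq_lintegral_ofReal i1]
    · refine lintegral_congr fun y => ?_
      rw [ENNReal.ofReal_mul (h0 _)]
    · filter_upwards [hI.J_nonneg] with y hy
      exact mul_nonneg (h0 _) hy
  have e2 : ∫⁻ x in (T : Set E), ENNReal.ofReal (ψ x) * INT.sheets T S θ univ x ∂μH[m] =
      Q * ∫⁻ x in (T : Set E), ENNReal.ofReal (ψ x) ∂μH[m] := by
    rw [← lintegral_const_mul _ hψ.ennreal_ofReal]
    refine lintegral_congr_ae ?_
    filter_upwards [hN] with x hx
    by_cases hxX : x ∈ X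
    · rw [hx hxX, mul_comm]
    · rw [hs x hxX, ENNReal.ofReal_zero, zero_mul, mul_zero]
  rw [e1, e2] at harea
  have hkey : ∫ y, ψ (T.starProjection y) * J y ∂ν = Q * ∫ x in (T : Set E), ψ x ∂μH[m] := by
    have h1 : 0 ≤ ∫ y, ψ (T.starProjection y) * J y ∂ν := by
      refine integral_nonneg_of_ae ?_
      filter_upwards [hI.J_nonneg] with y hy
      exact mul_nonneg (h0 _) hy
    rcases Nat.eq_zero_or_pos Q with hQ | hQ
    · subst hQ
      rw [Nat.cast_zero, zero_mul] at harea
      rw [Nat.cast_zero, zero_mul]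
      exact le_antisymm (ENNReal.ofReal_eq_zero.1 harea) h1
    · have h2 : ∫ x in (T : Set E), ψ x ∂μH[m] =
          (∫⁻ x in (T : Set E), ENNReal.ofReal (ψ x) ∂μH[m]).toReal :=
        integral_eq_lintegral_of_nonneg_ae (Eventually.of_forall h0) hψ.aestronglyMeasurable
      rw [h2, ← ENNReal.toReal_ofReal h1, harea, ENNReal.toReal_mul, ENNReal.toReal_natCast]
  rw [← hkey, ← integral_sub i3 i1, ← integral_const_mul]
  refine integral_mono_ae (i3.sub i1) (i2.const_mul _) ?_
  filter_upwards [hJ] with y h1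
  show ψ (T.starProjection y) * (1 - FV.tilt T (P y) / 2) - ψ (T.starProjection y) * J y ≤
    1 / 2 * (ψ (T.starProjection y) * FV.tilt T (P y) ^ 2)
  have h5 := h0 (T.starProjection y)
  have h6 : 1 - FV.tilt T (P y) / 2 - J y ≤ 1 / 2 * FV.tilt T (P y) ^ 2 := by linarith
  calc _ = ψ (T.starProjection y) * (1 - FV.tilt T (P y) / 2 - J y) := by ring
    _ ≤ ψ (T.starProjection y) * (1 / 2 * FV.tilt T (P y) ^ 2) := mul_le_mul_of_nonneg_left h6 h5
    _ = _ := by ring

/-- integrals of functions supported in the cylinder -/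
lemma integral_cyl {f : E → ℝ} (hf : ∀ y, y ∉ cylSet T z R → f y = 0) :
    ∫ y, f y ∂(ν.restrict (cylSet T z R)) = ∫ y, f y ∂ν :=
  setIntegral_eq_integral_of_forall_compl_eq_zero hf

/-- **good part and bad part** -/
theorem ffl_le_split (hI : IntCyl m Q T z R h δ ν P)
    (hint : INT.IntCyl m T (ball z R) h (ν.restrict (cylSet T z R)) P S θ J)
    (hJ : ∀ᵐ y ∂(ν.restrict (cylSet T z R)),
      1 - FV.tilt T (P y) / 2 - FV.tilt T (P y) ^ 2 / 2 ≤ J y) {X : Set E} (hX : MeasurableSet X)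
    (hN : ∀ᵐ x ∂((μH[m] : Measure E).restrict (T : Set E)), x ∈ X →
      INT.sheets T S θ univ x = Q) {ψ : E → ℝ}
    (hψ : Measurable ψ) (h0 : ∀ x, 0 ≤ ψ x) {M : ℝ} (hM : ∀ x, ψ x ≤ M)
    (hs : ∀ x, R ≤ ‖x - z‖ → ψ x = 0) :
    Ffl m Q T ν P ψ ≤
      1 / 2 * ∫ y in T.starProjection ⁻¹' X, ψ (T.starProjection y) * FV.tilt T (P y) ^ 2 ∂ν
        + ∫ y in T.starProjection ⁻¹' Xᶜ, ψ (T.starProjection y) ∂ν := by
  have hC := hI.cyl
  have hfin := hC.fin
  have hM0 : 0 ≤ M := (h0 z).trans (hM z)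
  have hTm : Measurable (T.starProjection : E → E) := T.starProjection.continuous.measurable
  have hM' : ∀ x, |ψ x| ≤ M := fun x => by rw [abs_of_nonneg (h0 x)]; exact hM x
  have hti := integrable_tilt' hC
  have hout : ∀ y, y ∉ cylSet T z R → ψ (T.starProjection y) = 0 := fun y hy => by
    refine hs _ ?_
    by_contra hcon
    push Not at hcon
    exact hy (by show T.starProjection y ∈ ball z R; rwa [mem_ball, dist_eq_norm])
  have hψ1 : Measurable (X.indicator ψ) := hψ.indicator hX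
  have hψ2 : Measurable (Xᶜ.indicator ψ) := hψ.indicator hX.compl
  have hsum : ∀ x, ψ x = X.indicator ψ x + Xᶜ.indicator ψ x := fun x =>
    (congrFun (indicator_self_add_compl X ψ) x).symm
  have hn1 : ∀ x, 0 ≤ X.indicator ψ x := fun x => indicator_nonneg (fun _ _ => h0 _) x
  have hn2 : ∀ x, 0 ≤ Xᶜ.indicator ψ x := fun x => indicator_nonneg (fun _ _ => h0 _) x
  have hb1 : ∀ x, X.indicator ψ x ≤ M := fun x =>
    (indicator_le_self' (fun _ _ => h0 _) x).trans (hM x)
  have hb2 : ∀ x, Xᶜ.indicator ψ x ≤ M := fun x =>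
    (indicator_le_self' (fun _ _ => h0 _) x).trans (hM x)
  have ha1 : ∀ x, |X.indicator ψ x| ≤ M := fun x => by rw [abs_of_nonneg (hn1 x)]; exact hb1 x
  have ha2 : ∀ x, |Xᶜ.indicator ψ x| ≤ M := fun x => by rw [abs_of_nonneg (hn2 x)]; exact hb2 x
  have p1 := pos_sq hint hJ hN hψ1 hn1 hb1 (fun x hx => indicator_of_notMem hx _)
  have ho1 : ∀ y, y ∉ cylSet T z R → X.indicator ψ (T.starProjection y) = 0 := fun y hy => by
    by_cases hx : T.starProjection y ∈ X
    · rw [indicator_of_mem hx]; exact hout y hy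
    · exact indicator_of_notMem hx _
  rw [integral_cyl fun y hy => by rw [ho1 y hy, zero_mul],
    integral_cyl fun y hy => by rw [ho1 y hy, zero_mul]] at p1
  -- integrability
  have j1 : Integrable (fun y => X.indicator ψ (T.starProjection y) *
      (1 - FV.tilt T (P y) / 2)) ν :=
    R2F.integrable_base hC hψ1 ha1 ((integrable_const (1:ℝ)).sub (hti.div_const 2))
  have j2 : Integrable (fun y => Xᶜ.indicator ψ (T.starProjection y) *
      (1 - FV.tilt T (P y) / 2)) ν :=
    R2F.integrable_base hC hψ2 ha2 ((integrable_const (1:ℝ)).sub (hti.div_const 2))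
  have j3 : Integrable (fun y => Xᶜ.indicator ψ (T.starProjection y)) ν :=
    Integrable.of_bound (hψ2.comp hTm).aestronglyMeasurable M
      (Eventually.of_forall fun y => by rw [Real.norm_eq_abs]; exact ha2 _)
  have hplane : ∀ {φ : E → ℝ}, Measurable φ → (∀ x, |φ x| ≤ M) → (∀ x, R ≤ ‖x - z‖ → φ x = 0) →
      IntegrableOn φ (T : Set E) μH[m] := by
    intro φ hφ hφM hφs
    have h1 : IntegrableOn φ ((T : Set E) ∩ closedBall 0 (R + ‖z‖)) (μH[m] : Measure E) := by
      refine Measure.integrableOn_of_bounded (M := M)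
        (DEN.locallyFinite_plane hC.dimT _).ne hφ.aestronglyMeasurable (ae_of_all _ fun y => ?_)
      rw [Real.norm_eq_abs]; exact hφM y
    refine IntegrableOn.of_forall_diff_eq_zero h1
      (Submodule.closed_of_finiteDimensional T).measurableSet ?_
    rintro y ⟨hy, hy'⟩
    refine hφs y ?_
    by_contra hcon
    push Not at hcon
    refine hy' ⟨hy, ?_⟩
    rw [mem_closedBall, dist_zero_right]
    calc ‖y‖ = ‖(y - z) + z‖ := by rw [sub_add_cancel]
      _ ≤ ‖y - z‖ + ‖z‖ := norm_add_le _ _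
      _ ≤ R + ‖z‖ := by gcongr
  have k1 := hplane hψ1 ha1 (fun x hx => by
    by_cases hxX : x ∈ X
    · rw [indicator_of_mem hxX]; exact hs x hx
    · exact indicator_of_notMem hxX _)
  have k2 := hplane hψ2 ha2 (fun x hx => by
    by_cases hxX : x ∈ Xᶜ
    · rw [indicator_of_mem hxX]; exact hs x hx
    · exact indicator_of_notMem hxX _)
  have e1 : ∫ y, ψ (T.starProjection y) * (1 - FV.tilt T (P y) / 2) ∂ν =
      ∫ y, X.indicator ψ (T.starProjection y) * (1 - FV.tilt T (P y) / 2) ∂ν +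
        ∫ y, Xᶜ.indicator ψ (T.starProjection y) * (1 - FV.tilt T (P y) / 2) ∂ν := by
    rw [← integral_add j1 j2]
    refine integral_congr_ae (Eventually.of_forall fun y => ?_)
    show ψ (T.starProjection y) * (1 - FV.tilt T (P y) / 2) =
      X.indicator ψ (T.starProjection y) * (1 - FV.tilt T (P y) / 2) +
        Xᶜ.indicator ψ (T.starProjection y) * (1 - FV.tilt T (P y) / 2)
    rw [← add_mul, ← hsum]
  have e2 : ∫ y in (T : Set E), ψ y ∂(μH[m] : Measure E) =
      ∫ y in (T : Set E), X.indicator ψ y ∂(μH[m] : Measure E) +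
        ∫ y in (T : Set E), Xᶜ.indicator ψ y ∂(μH[m] : Measure E) := by
    rw [← integral_add k1 k2]
    exact integral_congr_ae (Eventually.of_forall fun y => hsum y)
  have e3 : ∫ y, X.indicator ψ (T.starProjection y) * FV.tilt T (P y) ^ 2 ∂ν =
      ∫ y in T.starProjection ⁻¹' X, ψ (T.starProjection y) * FV.tilt T (P y) ^ 2 ∂ν := by
    rw [← integral_indicator (hTm hX)]
    refine integral_congr_ae (Eventually.of_forall fun y => ?_)
    by_cases hy : T.starProjection y ∈ X
    · simp only [indicator_of_mem hy, indicator_of_mem (show y ∈ T.starProjection ⁻¹' X from hy)]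
    · simp only [indicator_of_notMem hy,
        indicator_of_notMem (show y ∉ T.starProjection ⁻¹' X from hy), zero_mul]
  have e4 : ∫ y, Xᶜ.indicator ψ (T.starProjection y) ∂ν =
      ∫ y in T.starProjection ⁻¹' Xᶜ, ψ (T.starProjection y) ∂ν := by
    rw [← integral_indicator (hTm hX.compl)]
    refine integral_congr_ae (Eventually.of_forall fun y => ?_)
    by_cases hy : T.starProjection y ∈ Xᶜ
    · simp only [indicator_of_mem hy, indicator_of_mem (show y ∈ T.starProjection ⁻¹' Xᶜ from hy)]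
    · simp only [indicator_of_notMem hy,
        indicator_of_notMem (show y ∉ T.starProjection ⁻¹' Xᶜ from hy)]
  have p2 : ∫ y, Xᶜ.indicator ψ (T.starProjection y) * (1 - FV.tilt T (P y) / 2) ∂ν ≤
      ∫ y, Xᶜ.indicator ψ (T.starProjection y) ∂ν := by
    refine integral_mono_ae j2 j3 ?_
    filter_upwards [tilt_nonneg_ae hC] with y hy
    have h1 := hn2 (T.starProjection y)
    show Xᶜ.indicator ψ (T.starProjection y) * (1 - FV.tilt T (P y) / 2) ≤
      Xᶜ.indicator ψ (T.starProjection y)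
    nlinarith
  have p3 : 0 ≤ (Q:ℝ) * ∫ y in (T : Set E), Xᶜ.indicator ψ y ∂(μH[m] : Measure E) :=
    mul_nonneg (Nat.cast_nonneg _) (integral_nonneg hn2)
  unfold Ffl
  rw [e1, e2, mul_add]
  rw [e3] at p1
  rw [e4] at p2
  linarith

end Vale.Agent.P214.POSG
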