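import Vale.Agent.P214.POSG.Sq
import Vale.Agent.P214.INTM.M5

/-!
# P214, block POS (all m), part 3: sheets and tilt over the good set
-/

open Set Filter Topology MeasureTheory Metric
open scoped RealInnerProductSpace ENNReal

set_option linter.all false

namespace Vale.Agent.P214.POSG

open Vale.Agent.P214.FV Vale.Agent.P214.Skel Vale.Agent.P214.R2

variable {E : Type*} [NormedAddCommGroup E] [InnerProductSpace ℝ E] [FiniteDimensional ℝ E]
  [MeasurableSpace E] [BorelSpace E]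
variable {m Q : ℕ} {T : Submodule ℝ E} {G : Set E} {h : ℝ} {ν : Measure E} {P : E → E →L[ℝ] E}
  {S : Set E} {θ : E → ℕ} {J : E → ℝ} {x z : E} {R s r τ δ : ℝ}

lemma gd_exc_le (hC : CylStat m T G h ν P) (hx : x ∈ Gd m T ν P z R τ) (A : Set E) (hs : 0 < s)
    (hsR : s ≤ R / 16) : INT.exc m T (ν.restrict A) P x s ≤ 2 * τ := by
  have h1 := int_exc_le hC hx.1 hs A
  refine h1.trans ?_
  rw [div_le_iff₀ (by positivity)]
  have := hx.2.2 s hs hsR
  linarith

/-- a finite net of centres -/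
lemma exists_centres (T : Submodule ℝ E) (z : E) (hR : 0 < R) :
    ∃ t : Set E, t.Finite ∧ (∀ z' ∈ t, z' ∈ T ∧ ‖z' - z‖ ≤ 3 / 4 * R) ∧
      ∀ x ∈ T, ‖x - z‖ ≤ 3 / 4 * R → ∃ z' ∈ t, x ∈ ball z' (R / 16) := by
  have hcpt : IsCompact ((T : Set E) ∩ closedBall z (3 / 4 * R)) :=
    (isCompact_closedBall z _).inter_left (Submodule.closed_of_finiteDimensional T)
  obtain ⟨t, htA, htf, hcov⟩ := hcpt.finite_cover_balls (e := R / 16) (by positivity)
  refine ⟨t, htf, fun z' hz' => ?_, fun x hx hxz => ?_⟩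
  · have := htA hz'
    exact ⟨this.1, by rw [← dist_eq_norm]; exact this.2⟩
  · have h1 := hcov ⟨hx, by rw [mem_closedBall, dist_eq_norm]; exact hxz⟩
    simp only [mem_iUnion, exists_prop] at h1
    exact h1

/-- **(INT-M)(ii) over the good set** -/
theorem sheets_good (E : Type*) [NormedAddCommGroup E] [InnerProductSpace ℝ E]
    [FiniteDimensional ℝ E] [MeasurableSpace E] [BorelSpace E] (m Q : ℕ) (hm : 1 ≤ m) :
    ∃ δ : ℝ, 0 < δ ∧
    ∀ (T : Submodule ℝ E) (z : E) (R h : ℝ) (ν : Measure E) (P : E → E →L[ℝ] E),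
      IntCyl m Q T z R h δ ν P → exc T ν P z R ≤ δ * R ^ m →
      ∀ (S : Set E) (θ : E → ℕ) (J : E → ℝ),
        INT.IntCyl m T (ball z R) h (ν.restrict (cylSet T z R)) P S θ J →
      ∀ τ : ℝ, τ ≤ δ → ∀ᵐ x ∂((μH[m] : Measure E).restrict (T : Set E)),
        x ∈ Gd m T ν P z R τ → INT.sheets T S θ univ x = Q := by
  obtain ⟨δ₁, hδ₁, H₁⟩ := INT.sheetsEq (E := E) m Q
  obtain ⟨δ₀, hδ₀, H₀⟩ := win_top E m Q hm hδ₁ (c := 1 / 16) (by norm_num)
  refine ⟨min δ₀ (δ₁ / 2), by positivity, ?_⟩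
  intro T z R h ν P hI hexc S θ J hint τ hτ
  haveI := hI.cyl.fin
  have hR := hI.pos
  have hd0 : min δ₀ (δ₁ / 2) ≤ δ₀ := min_le_left _ _
  have hd1 : min δ₀ (δ₁ / 2) ≤ δ₁ / 2 := min_le_right _ _
  have hI' : IntCyl m Q T z R h δ₀ ν P :=
    { hI with mass := hI.mass.trans (by have := hI.pos; gcongr) }
  have hexc' : exc T ν P z R ≤ δ₀ * R ^ m := hexc.trans (by gcongr)
  obtain ⟨t, htf, ht, hcov⟩ := exists_centres T z hR
  have hall : ∀ z' ∈ t, ∀ᵐ x ∂((μH[m] : Measure E).restrict (T : Set E)),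
      x ∈ INT.goodSet m T (ν.restrict (cylSet T z R)) P z' (R / 16) δ₁ →
        INT.sheets T S θ univ x = Q := by
    intro z' hz'
    have hW := H₀ T z R h ν P hI' hexc' z' (ht z' hz').1 (R / 16) (by linarith)
      (by have := (ht z' hz').2; linarith) S θ J hint
    have h1 := H₁ T _ h _ P S θ J z' (R / 16) hW
    have hmeas : MeasurableSet (INT.goodSet m T (ν.restrict (cylSet T z R)) P z' (R / 16) δ₁) :=
      INT.measurableSet_goodSet hint.loc
    rw [ae_restrict_iff' hmeas] at h1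
    exact ae_restrict_of_ae h1
  have hall' := (ae_ball_iff htf.countable).2 hall
  filter_upwards [hall'] with x hx hxg
  obtain ⟨z', hz', hxz'⟩ := hcov x hxg.1 hxg.2.1
  refine hx z' hz' ⟨hxg.1, hxz', fun s hs hsR => ?_⟩
  refine (gd_exc_le hI.cyl hxg _ hs hsR).trans ?_
  linarith

/-- `tilt ≤ m ‖P - p‖²` -/
lemma tilt_le_int (hC : CylStat m T G h ν P) :
    ∀ᵐ y ∂ν, FV.tilt T (P y) ≤ m * INT.tilt P T y ^ 2 := by
  filter_upwards [hC.proj] with y hy
  obtain ⟨L, hL, hP⟩ := hy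
  unfold INT.tilt
  rw [hP]
  exact (AREA.jac_bounds hL hC.dimT).2.2.1

/-- **tilt over the good set** -/
theorem tilt_good (hI : IntCyl m Q T z R h δ ν P)
    (hint : INT.IntCyl m T (ball z R) h (ν.restrict (cylSet T z R)) P S θ J) (τ : ℝ) :
    ∀ᵐ y ∂ν, T.starProjection y ∈ Gd m T ν P z R τ →
      FV.tilt T (P y) ≤ m * (2 ^ m / cg m * (2 * τ)) := by
  have hR := hI.pos
  have hC := hI.cyl
  have hcg := cg_pos m
  obtain ⟨t, htf, ht, hcov⟩ := exists_centres T z hR
  have hall : ∀ z' ∈ t, ∀ᵐ y ∂(ν.restrict (cylSet T z R)),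
      T.starProjection y ∈ INTM.good m (2 * τ) T (ν.restrict (cylSet T z R)) P z' (R / 16) →
        INT.tilt P T y ^ 2 ≤ 2 ^ m / cg m * (2 * τ) := by
    intro z' hz'
    refine INTM.tilt_le_ae hint (by positivity) ?_
    rw [Submodule.starProjection_eq_self_iff.2 (ht z' hz').1]
    refine ball_subset_ball' ?_
    rw [dist_eq_norm]
    have := (ht z' hz').2
    linarith
  have hall' := (ae_ball_iff htf.countable).2 hall
  rw [ae_restrict_iff' (measurableSet_cylSet T z R)] at hall'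
  filter_upwards [hall', tilt_le_int hC] with y hy h2 hyg
  obtain ⟨z', hz', hxz'⟩ := hcov _ hyg.1 hyg.2.1
  have hmem : y ∈ cylSet T z R := by
    show T.starProjection y ∈ ball z R
    rw [mem_ball, dist_eq_norm]
    have := hyg.2.1
    linarith
  have h3 := hy hmem z' hz' ⟨hyg.1, by
    rwa [Submodule.starProjection_eq_self_iff.2 (ht z' hz').1], fun s hs hsR =>
    gd_exc_le hC hyg _ hs hsR⟩
  refine h2.trans ?_
  gcongr

/-- **mass over a steep ball** -/
theorem mass_steep (E : Type*) [NormedAddCommGroup E] [InnerProductSpace ℝ E]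
    [FiniteDimensional ℝ E] [MeasurableSpace E] [BorelSpace E] (m Q : ℕ) (hm : 1 ≤ m) :
    ∃ δ C : ℝ, 0 < δ ∧ 0 < C ∧
    ∀ (T : Submodule ℝ E) (z : E) (R h : ℝ) (ν : Measure E) (P : E → E →L[ℝ] E),
      IntCyl m Q T z R h δ ν P → exc T ν P z R ≤ δ * R ^ m →
      ∀ x ∈ T, ‖x - z‖ ≤ 3 / 4 * R → ∀ s : ℝ, 0 < s → s ≤ R / 64 → ∀ τ, τ ≤ δ →
      (∀ s', s < s' → s' ≤ R / 16 → exc T ν P x s' < τ * s' ^ m) →
      ν.real (T.starProjection ⁻¹' closedBall x (5 * s)) ≤ C * s ^ m := by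
  obtain ⟨δ, C, hδ, hC, H⟩ := near_down E m Q hm (η := 1 / 3) (by norm_num)
  refine ⟨δ, C * 2 ^ m, hδ, by positivity, ?_⟩
  intro T z R h ν P hI hexc x hx hxz s hs hsR τ hτ hex
  haveI := hI.cyl.fin
  have hR := hI.pos
  have h1 := (H T z R h ν P hI hexc x hx hxz (2 * s) (by positivity) (by linarith)
    (fun s' h1 h2 => ?_)).2 (6 * s) (by linarith) (by linarith)
  · calc ν.real (T.starProjection ⁻¹' closedBall x (5 * s)) ≤ ν.real (cylSet T x (6 * s)) := by
          refine measureReal_mono fun y hy => ?_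
          have : dist (T.starProjection y) x ≤ 5 * s := hy
          show dist (T.starProjection y) x < 6 * s
          linarith
      _ ≤ C * (2 * s) ^ m := h1
      _ = _ := by rw [mul_pow]; ring
  · have h3 := (hex s' (by linarith) h2).le
    refine h3.trans ?_
    have : 0 < s' := by linarith
    gcongr

end Vale.Agent.P214.POSG
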